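import Crest.Agent.R187.SN.KD.Base

/-!
# Row 187, PLAN S, generated certificate data (mod 127): level (5, 5)

Written by a C++ program (helper662) from the recursion of `SN/Spec.lean`; canonical (RREF)
frames.  The tables are only data: every property is checked by the kernel elsewhere.
-/

set_option autoImplicit false
set_option maxRecDepth 100000

namespace Crest.Agent.R187.SN.KD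

/-- index of level (5, 5) -/
noncomputable def ix_5_5 : List IE := [⟨nat_lit 0xc800000000, nat_lit 1, nat_lit 0⟩,
  ⟨nat_lit 0xb820000000, nat_lit 1, nat_lit 1⟩,
  ⟨nat_lit 0xb030000000, nat_lit 1, nat_lit 2⟩,
  ⟨nat_lit 0xa840000000, nat_lit 2, nat_lit 3⟩,
  ⟨nat_lit 0xa820400000, nat_lit 1, nat_lit 5⟩,
  ⟨nat_lit 0xa050000000, nat_lit 2, nat_lit 6⟩,
  ⟨nat_lit 0xa040200000, nat_lit 1, nat_lit 8⟩,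
  ⟨nat_lit 0xa030400000, nat_lit 1, nat_lit 9⟩,
  ⟨nat_lit 0x9860000000, nat_lit 2, nat_lit 0xa⟩,
  ⟨nat_lit 0x9850200000, nat_lit 1, nat_lit 0xc⟩,
  ⟨nat_lit 0x9840400000, nat_lit 3, nat_lit 0xd⟩,
  ⟨nat_lit 0x9820408000, nat_lit 1, nat_lit 0x10⟩,
  ⟨nat_lit 0x9070000000, nat_lit 2, nat_lit 0x11⟩,
  ⟨nat_lit 0x9060200000, nat_lit 3, nat_lit 0x13⟩,
  ⟨nat_lit 0x9050400000, nat_lit 3, nat_lit 0x16⟩,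
  ⟨nat_lit 0x9040600000, nat_lit 2, nat_lit 0x19⟩,
  ⟨nat_lit 0x9040404000, nat_lit 1, nat_lit 0x1b⟩,
  ⟨nat_lit 0x9030408000, nat_lit 1, nat_lit 0x1c⟩,
  ⟨nat_lit 0x8880000000, nat_lit 3, nat_lit 0x1d⟩,
  ⟨nat_lit 0x8870200000, nat_lit 2, nat_lit 0x20⟩,
  ⟨nat_lit 0x8860400000, nat_lit 5, nat_lit 0x22⟩,
  ⟨nat_lit 0x8850600000, nat_lit 2, nat_lit 0x27⟩,
  ⟨nat_lit 0x8850404000, nat_lit 2, nat_lit 0x29⟩,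
  ⟨nat_lit 0x8840800000, nat_lit 3, nat_lit 0x2b⟩,
  ⟨nat_lit 0x8840604000, nat_lit 1, nat_lit 0x2e⟩,
  ⟨nat_lit 0x8840408000, nat_lit 2, nat_lit 0x2f⟩,
  ⟨nat_lit 0x8820408100, nat_lit 1, nat_lit 0x31⟩,
  ⟨nat_lit 0x8090000000, nat_lit 2, nat_lit 0x32⟩,
  ⟨nat_lit 0x8080200000, nat_lit 3, nat_lit 0x34⟩,
  ⟨nat_lit 0x8070400000, nat_lit 5, nat_lit 0x37⟩,
  ⟨nat_lit 0x8070204000, nat_lit 1, nat_lit 0x3c⟩,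
  ⟨nat_lit 0x8060600000, nat_lit 5, nat_lit 0x3d⟩,
  ⟨nat_lit 0x8060404000, nat_lit 3, nat_lit 0x42⟩,
  ⟨nat_lit 0x8050800000, nat_lit 3, nat_lit 0x45⟩,
  ⟨nat_lit 0x8050604000, nat_lit 2, nat_lit 0x48⟩,
  ⟨nat_lit 0x8050408000, nat_lit 3, nat_lit 0x4a⟩,
  ⟨nat_lit 0x8040804000, nat_lit 2, nat_lit 0x4d⟩,
  ⟨nat_lit 0x8040608000, nat_lit 1, nat_lit 0x4f⟩,
  ⟨nat_lit 0x8040408080, nat_lit 1, nat_lit 0x50⟩,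
  ⟨nat_lit 0x78a0000000, nat_lit 2, nat_lit 0x51⟩,
  ⟨nat_lit 0x7890200000, nat_lit 2, nat_lit 0x53⟩,
  ⟨nat_lit 0x7880400000, nat_lit 6, nat_lit 0x55⟩,
  ⟨nat_lit 0x7880204000, nat_lit 1, nat_lit 0x5b⟩,
  ⟨nat_lit 0x7870600000, nat_lit 4, nat_lit 0x5c⟩,
  ⟨nat_lit 0x7870404000, nat_lit 4, nat_lit 0x60⟩,
  ⟨nat_lit 0x7860800000, nat_lit 6, nat_lit 0x64⟩,
  ⟨nat_lit 0x7860604000, nat_lit 4, nat_lit 0x6a⟩,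
  ⟨nat_lit 0x7860408000, nat_lit 4, nat_lit 0x6e⟩,
  ⟨nat_lit 0x7850804000, nat_lit 3, nat_lit 0x72⟩,
  ⟨nat_lit 0x7850608000, nat_lit 2, nat_lit 0x75⟩,
  ⟨nat_lit 0x7850604080, nat_lit 1, nat_lit 0x77⟩,
  ⟨nat_lit 0x7850408080, nat_lit 1, nat_lit 0x78⟩,
  ⟨nat_lit 0x7840808000, nat_lit 3, nat_lit 0x79⟩,
  ⟨nat_lit 0x7840408100, nat_lit 1, nat_lit 0x7c⟩,
  ⟨nat_lit 0x70b0000000, nat_lit 1, nat_lit 0x7d⟩,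
  ⟨nat_lit 0x70a0200000, nat_lit 3, nat_lit 0x7e⟩,
  ⟨nat_lit 0x7090400000, nat_lit 5, nat_lit 0x81⟩,
  ⟨nat_lit 0x7090204000, nat_lit 1, nat_lit 0x86⟩,
  ⟨nat_lit 0x7080600000, nat_lit 6, nat_lit 0x87⟩,
  ⟨nat_lit 0x7080404000, nat_lit 4, nat_lit 0x8d⟩,
  ⟨nat_lit 0x7070800000, nat_lit 6, nat_lit 0x91⟩,
  ⟨nat_lit 0x7070604000, nat_lit 5, nat_lit 0x97⟩,
  ⟨nat_lit 0x7070408000, nat_lit 3, nat_lit 0x9c⟩,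
  ⟨nat_lit 0x7070404080, nat_lit 1, nat_lit 0x9f⟩,
  ⟨nat_lit 0x7060a00000, nat_lit 4, nat_lit 0xa0⟩,
  ⟨nat_lit 0x7060804000, nat_lit 6, nat_lit 0xa4⟩,
  ⟨nat_lit 0x7060608000, nat_lit 4, nat_lit 0xaa⟩,
  ⟨nat_lit 0x7060408080, nat_lit 2, nat_lit 0xae⟩,
  ⟨nat_lit 0x7050a04000, nat_lit 1, nat_lit 0xb0⟩,
  ⟨nat_lit 0x7050808000, nat_lit 4, nat_lit 0xb1⟩,
  ⟨nat_lit 0x7050804080, nat_lit 1, nat_lit 0xb5⟩,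
  ⟨nat_lit 0x7050608080, nat_lit 1, nat_lit 0xb6⟩,
  ⟨nat_lit 0x7050408100, nat_lit 1, nat_lit 0xb7⟩,
  ⟨nat_lit 0x704080c000, nat_lit 1, nat_lit 0xb8⟩,
  ⟨nat_lit 0x7040808080, nat_lit 1, nat_lit 0xb9⟩,
  ⟨nat_lit 0x68c0000000, nat_lit 1, nat_lit 0xba⟩,
  ⟨nat_lit 0x68b0200000, nat_lit 1, nat_lit 0xbb⟩,
  ⟨nat_lit 0x68a0400000, nat_lit 4, nat_lit 0xbc⟩,
  ⟨nat_lit 0x68a0204000, nat_lit 1, nat_lit 0xc0⟩,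
  ⟨nat_lit 0x6890600000, nat_lit 4, nat_lit 0xc1⟩,
  ⟨nat_lit 0x6890404000, nat_lit 4, nat_lit 0xc5⟩,
  ⟨nat_lit 0x6880800000, nat_lit 7, nat_lit 0xc9⟩,
  ⟨nat_lit 0x6880604000, nat_lit 5, nat_lit 0xd0⟩,
  ⟨nat_lit 0x6880408000, nat_lit 5, nat_lit 0xd5⟩,
  ⟨nat_lit 0x6880404080, nat_lit 1, nat_lit 0xda⟩,
  ⟨nat_lit 0x6870a00000, nat_lit 3, nat_lit 0xdb⟩,
  ⟨nat_lit 0x6870804000, nat_lit 7, nat_lit 0xde⟩,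
  ⟨nat_lit 0x6870608000, nat_lit 4, nat_lit 0xe5⟩,
  ⟨nat_lit 0x6870604080, nat_lit 2, nat_lit 0xe9⟩,
  ⟨nat_lit 0x6860c00000, nat_lit 4, nat_lit 0xeb⟩,
  ⟨nat_lit 0x6860a04000, nat_lit 4, nat_lit 0xef⟩,
  ⟨nat_lit 0x6860808000, nat_lit 7, nat_lit 0xf3⟩,
  ⟨nat_lit 0x6860804080, nat_lit 1, nat_lit 0xfa⟩,
  ⟨nat_lit 0x686060c000, nat_lit 1, nat_lit 0xfb⟩,
  ⟨nat_lit 0x6860608080, nat_lit 2, nat_lit 0xfc⟩,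
  ⟨nat_lit 0x6860408100, nat_lit 1, nat_lit 0xfe⟩,
  ⟨nat_lit 0x6850a08000, nat_lit 1, nat_lit 0xff⟩,
  ⟨nat_lit 0x6850a04080, nat_lit 1, nat_lit 0x100⟩,
  ⟨nat_lit 0x685080c000, nat_lit 2, nat_lit 0x101⟩,
  ⟨nat_lit 0x6850808080, nat_lit 2, nat_lit 0x103⟩,
  ⟨nat_lit 0x6840810000, nat_lit 2, nat_lit 0x105⟩,
  ⟨nat_lit 0x6840808100, nat_lit 1, nat_lit 0x107⟩,
  ⟨nat_lit 0x60c0200000, nat_lit 1, nat_lit 0x108⟩,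
  ⟨nat_lit 0x60b0400000, nat_lit 2, nat_lit 0x109⟩,
  ⟨nat_lit 0x60a0600000, nat_lit 4, nat_lit 0x10b⟩,
  ⟨nat_lit 0x60a0404000, nat_lit 3, nat_lit 0x10f⟩,
  ⟨nat_lit 0x6090800000, nat_lit 5, nat_lit 0x112⟩,
  ⟨nat_lit 0x6090604000, nat_lit 4, nat_lit 0x117⟩,
  ⟨nat_lit 0x6090408000, nat_lit 3, nat_lit 0x11b⟩,
  ⟨nat_lit 0x6090404080, nat_lit 1, nat_lit 0x11e⟩,
  ⟨nat_lit 0x6080a00000, nat_lit 5, nat_lit 0x11f⟩,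
  ⟨nat_lit 0x6080804000, nat_lit 7, nat_lit 0x124⟩,
  ⟨nat_lit 0x6080608000, nat_lit 5, nat_lit 0x12b⟩,
  ⟨nat_lit 0x6080604080, nat_lit 1, nat_lit 0x130⟩,
  ⟨nat_lit 0x6080408080, nat_lit 2, nat_lit 0x131⟩,
  ⟨nat_lit 0x6070c00000, nat_lit 3, nat_lit 0x133⟩,
  ⟨nat_lit 0x6070a04000, nat_lit 5, nat_lit 0x136⟩,
  ⟨nat_lit 0x6070808000, nat_lit 7, nat_lit 0x13b⟩,
  ⟨nat_lit 0x6070804080, nat_lit 2, nat_lit 0x142⟩,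
  ⟨nat_lit 0x607060c000, nat_lit 1, nat_lit 0x144⟩,
  ⟨nat_lit 0x6070608080, nat_lit 1, nat_lit 0x145⟩,
  ⟨nat_lit 0x6070408100, nat_lit 1, nat_lit 0x146⟩,
  ⟨nat_lit 0x6060c04000, nat_lit 3, nat_lit 0x147⟩,
  ⟨nat_lit 0x6060a08000, nat_lit 5, nat_lit 0x14a⟩,
  ⟨nat_lit 0x6060a04080, nat_lit 1, nat_lit 0x14f⟩,
  ⟨nat_lit 0x606080c000, nat_lit 4, nat_lit 0x150⟩,
  ⟨nat_lit 0x6060808080, nat_lit 3, nat_lit 0x154⟩,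
  ⟨nat_lit 0x6050a08080, nat_lit 1, nat_lit 0x157⟩,
  ⟨nat_lit 0x6050810000, nat_lit 2, nat_lit 0x158⟩,
  ⟨nat_lit 0x6050808100, nat_lit 1, nat_lit 0x15a⟩,
  ⟨nat_lit 0x6040810080, nat_lit 1, nat_lit 0x15b⟩,
  ⟨nat_lit 0x58b0404000, nat_lit 1, nat_lit 0x15c⟩,
  ⟨nat_lit 0x58b0204080, nat_lit 1, nat_lit 0x15d⟩,
  ⟨nat_lit 0x58a0800000, nat_lit 3, nat_lit 0x15e⟩,
  ⟨nat_lit 0x58a0604000, nat_lit 3, nat_lit 0x161⟩,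
  ⟨nat_lit 0x58a0408000, nat_lit 2, nat_lit 0x164⟩,
  ⟨nat_lit 0x5890a00000, nat_lit 2, nat_lit 0x166⟩,
  ⟨nat_lit 0x5890804000, nat_lit 5, nat_lit 0x168⟩,
  ⟨nat_lit 0x5890608000, nat_lit 3, nat_lit 0x16d⟩,
  ⟨nat_lit 0x5890604080, nat_lit 2, nat_lit 0x170⟩,
  ⟨nat_lit 0x5890408080, nat_lit 1, nat_lit 0x172⟩,
  ⟨nat_lit 0x5880c00000, nat_lit 4, nat_lit 0x173⟩,
  ⟨nat_lit 0x5880a04000, nat_lit 5, nat_lit 0x177⟩,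
  ⟨nat_lit 0x5880808000, nat_lit 7, nat_lit 0x17c⟩,
  ⟨nat_lit 0x5880804080, nat_lit 2, nat_lit 0x183⟩,
  ⟨nat_lit 0x588060c000, nat_lit 1, nat_lit 0x185⟩,
  ⟨nat_lit 0x5880608080, nat_lit 2, nat_lit 0x186⟩,
  ⟨nat_lit 0x5880408100, nat_lit 1, nat_lit 0x188⟩,
  ⟨nat_lit 0x5870c04000, nat_lit 4, nat_lit 0x189⟩,
  ⟨nat_lit 0x5870a08000, nat_lit 4, nat_lit 0x18d⟩,
  ⟨nat_lit 0x5870a04080, nat_lit 3, nat_lit 0x191⟩,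
  ⟨nat_lit 0x587080c000, nat_lit 4, nat_lit 0x194⟩,
  ⟨nat_lit 0x5870808080, nat_lit 3, nat_lit 0x198⟩,
  ⟨nat_lit 0x587060c080, nat_lit 1, nat_lit 0x19b⟩,
  ⟨nat_lit 0x5860c08000, nat_lit 4, nat_lit 0x19c⟩,
  ⟨nat_lit 0x5860a0c000, nat_lit 3, nat_lit 0x1a0⟩,
  ⟨nat_lit 0x5860a08080, nat_lit 2, nat_lit 0x1a3⟩,
  ⟨nat_lit 0x5860810000, nat_lit 3, nat_lit 0x1a5⟩,
  ⟨nat_lit 0x586080c080, nat_lit 2, nat_lit 0x1a8⟩,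
  ⟨nat_lit 0x5860808100, nat_lit 2, nat_lit 0x1aa⟩,
  ⟨nat_lit 0x5850a0c080, nat_lit 1, nat_lit 0x1ac⟩,
  ⟨nat_lit 0x5840810100, nat_lit 1, nat_lit 0x1ad⟩,
  ⟨nat_lit 0x50a0a00000, nat_lit 3, nat_lit 0x1ae⟩,
  ⟨nat_lit 0x50a0804000, nat_lit 2, nat_lit 0x1b1⟩,
  ⟨nat_lit 0x50a0608000, nat_lit 1, nat_lit 0x1b3⟩,
  ⟨nat_lit 0x50a0408080, nat_lit 1, nat_lit 0x1b4⟩,
  ⟨nat_lit 0x5090c00000, nat_lit 2, nat_lit 0x1b5⟩,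
  ⟨nat_lit 0x5090a04000, nat_lit 3, nat_lit 0x1b7⟩,
  ⟨nat_lit 0x5090808000, nat_lit 4, nat_lit 0x1ba⟩,
  ⟨nat_lit 0x5090804080, nat_lit 1, nat_lit 0x1be⟩,
  ⟨nat_lit 0x509060c000, nat_lit 1, nat_lit 0x1bf⟩,
  ⟨nat_lit 0x5090608080, nat_lit 1, nat_lit 0x1c0⟩,
  ⟨nat_lit 0x5080e00000, nat_lit 1, nat_lit 0x1c1⟩,
  ⟨nat_lit 0x5080c04000, nat_lit 4, nat_lit 0x1c2⟩,
  ⟨nat_lit 0x5080a08000, nat_lit 5, nat_lit 0x1c6⟩,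
  ⟨nat_lit 0x5080a04080, nat_lit 1, nat_lit 0x1cb⟩,
  ⟨nat_lit 0x508080c000, nat_lit 3, nat_lit 0x1cc⟩,
  ⟨nat_lit 0x5080808080, nat_lit 2, nat_lit 0x1cf⟩,
  ⟨nat_lit 0x5080608100, nat_lit 1, nat_lit 0x1d1⟩,
  ⟨nat_lit 0x5070e04000, nat_lit 1, nat_lit 0x1d2⟩,
  ⟨nat_lit 0x5070c08000, nat_lit 3, nat_lit 0x1d3⟩,
  ⟨nat_lit 0x5070c04080, nat_lit 1, nat_lit 0x1d6⟩,
  ⟨nat_lit 0x5070a0c000, nat_lit 3, nat_lit 0x1d7⟩,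
  ⟨nat_lit 0x5070a08080, nat_lit 2, nat_lit 0x1da⟩,
  ⟨nat_lit 0x5070810000, nat_lit 3, nat_lit 0x1dc⟩,
  ⟨nat_lit 0x507080c080, nat_lit 2, nat_lit 0x1df⟩,
  ⟨nat_lit 0x5070808100, nat_lit 1, nat_lit 0x1e1⟩,
  ⟨nat_lit 0x5060c0c000, nat_lit 3, nat_lit 0x1e2⟩,
  ⟨nat_lit 0x5060c08080, nat_lit 2, nat_lit 0x1e5⟩,
  ⟨nat_lit 0x5060a10000, nat_lit 2, nat_lit 0x1e7⟩,
  ⟨nat_lit 0x5060a0c080, nat_lit 1, nat_lit 0x1e9⟩,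
  ⟨nat_lit 0x5060a08100, nat_lit 1, nat_lit 0x1ea⟩,
  ⟨nat_lit 0x5060810080, nat_lit 2, nat_lit 0x1eb⟩,
  ⟨nat_lit 0x506080c100, nat_lit 1, nat_lit 0x1ed⟩,
  ⟨nat_lit 0x5050810100, nat_lit 1, nat_lit 0x1ee⟩,
  ⟨nat_lit 0x4890c04000, nat_lit 1, nat_lit 0x1ef⟩,
  ⟨nat_lit 0x4890a08000, nat_lit 1, nat_lit 0x1f0⟩,
  ⟨nat_lit 0x4890a04080, nat_lit 1, nat_lit 0x1f1⟩,
  ⟨nat_lit 0x489080c000, nat_lit 1, nat_lit 0x1f2⟩,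
  ⟨nat_lit 0x4890808080, nat_lit 1, nat_lit 0x1f3⟩,
  ⟨nat_lit 0x489060c080, nat_lit 1, nat_lit 0x1f4⟩,
  ⟨nat_lit 0x4881000000, nat_lit 1, nat_lit 0x1f5⟩,
  ⟨nat_lit 0x4880e04000, nat_lit 1, nat_lit 0x1f6⟩,
  ⟨nat_lit 0x4880c08000, nat_lit 3, nat_lit 0x1f7⟩,
  ⟨nat_lit 0x4880c04080, nat_lit 1, nat_lit 0x1fa⟩,
  ⟨nat_lit 0x4880a0c000, nat_lit 2, nat_lit 0x1fb⟩,
  ⟨nat_lit 0x4880a08080, nat_lit 2, nat_lit 0x1fd⟩,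
  ⟨nat_lit 0x4880810000, nat_lit 2, nat_lit 0x1ff⟩,
  ⟨nat_lit 0x488080c080, nat_lit 1, nat_lit 0x201⟩,
  ⟨nat_lit 0x4880808100, nat_lit 1, nat_lit 0x202⟩,
  ⟨nat_lit 0x4870e04080, nat_lit 1, nat_lit 0x203⟩,
  ⟨nat_lit 0x4870c0c000, nat_lit 1, nat_lit 0x204⟩,
  ⟨nat_lit 0x4870c08080, nat_lit 1, nat_lit 0x205⟩,
  ⟨nat_lit 0x4870a10000, nat_lit 1, nat_lit 0x206⟩,
  ⟨nat_lit 0x4870a0c080, nat_lit 2, nat_lit 0x207⟩,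
  ⟨nat_lit 0x4870810080, nat_lit 1, nat_lit 0x209⟩,
  ⟨nat_lit 0x487080c100, nat_lit 1, nat_lit 0x20a⟩,
  ⟨nat_lit 0x4860c10000, nat_lit 2, nat_lit 0x20b⟩,
  ⟨nat_lit 0x4860c0c080, nat_lit 1, nat_lit 0x20d⟩,
  ⟨nat_lit 0x4860c08100, nat_lit 1, nat_lit 0x20e⟩,
  ⟨nat_lit 0x4860a10080, nat_lit 1, nat_lit 0x20f⟩,
  ⟨nat_lit 0x4860a0c100, nat_lit 1, nat_lit 0x210⟩,
  ⟨nat_lit 0x4860810100, nat_lit 1, nat_lit 0x211⟩,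
  ⟨nat_lit 0x4840810200, nat_lit 1, nat_lit 0x212⟩,
  ⟨nat_lit 0x4080e08000, nat_lit 1, nat_lit 0x213⟩,
  ⟨nat_lit 0x4080c0c000, nat_lit 1, nat_lit 0x214⟩,
  ⟨nat_lit 0x4080c08080, nat_lit 1, nat_lit 0x215⟩,
  ⟨nat_lit 0x4080a10000, nat_lit 1, nat_lit 0x216⟩,
  ⟨nat_lit 0x4080a08100, nat_lit 1, nat_lit 0x217⟩,
  ⟨nat_lit 0x4080810080, nat_lit 1, nat_lit 0x218⟩,
  ⟨nat_lit 0x4070c10000, nat_lit 1, nat_lit 0x219⟩,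
  ⟨nat_lit 0x4070c0c080, nat_lit 1, nat_lit 0x21a⟩,
  ⟨nat_lit 0x4070a10080, nat_lit 1, nat_lit 0x21b⟩,
  ⟨nat_lit 0x4070810100, nat_lit 1, nat_lit 0x21c⟩,
  ⟨nat_lit 0x4060c14000, nat_lit 1, nat_lit 0x21d⟩,
  ⟨nat_lit 0x4060c10080, nat_lit 1, nat_lit 0x21e⟩,
  ⟨nat_lit 0x4060c0c100, nat_lit 1, nat_lit 0x21f⟩,
  ⟨nat_lit 0x4060810180, nat_lit 1, nat_lit 0x220⟩,
  ⟨nat_lit 0x3870a0c180, nat_lit 1, nat_lit 0x221⟩,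
  ⟨nat_lit 0x3860c10100, nat_lit 1, nat_lit 0x222⟩,
  ⟨nat_lit 0x3060c18080, nat_lit 1, nat_lit 0x223⟩]











end Crest.Agent.R187.SN.KD
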