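import Crest.Agent.R187.SN.KD.Base

-- ▼ part R187/SN/KD/L_5_6

/-!
# Row 187, PLAN S, generated certificate data (mod 127): level (5, 6)

Written by a C++ program (helper662) from the recursion of `SN/Spec.lean`; canonical (RREF)
frames.  The tables are only data: every property is checked by the kernel elsewhere.
-/

set_option autoImplicit false
set_option maxRecDepth 100000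

namespace Crest.Agent.R187.SN.KD

/-- index of level (5, 6) -/
noncomputable def ix_5_6 : List IE := [⟨nat_lit 0xf000000000, nat_lit 1, nat_lit 0⟩,
  ⟨nat_lit 0xe020000000, nat_lit 1, nat_lit 1⟩,
  ⟨nat_lit 0xd830000000, nat_lit 1, nat_lit 2⟩,
  ⟨nat_lit 0xd040000000, nat_lit 2, nat_lit 3⟩,
  ⟨nat_lit 0xd020400000, nat_lit 1, nat_lit 5⟩,
  ⟨nat_lit 0xc850000000, nat_lit 2, nat_lit 6⟩,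
  ⟨nat_lit 0xc840200000, nat_lit 1, nat_lit 8⟩,
  ⟨nat_lit 0xc830400000, nat_lit 1, nat_lit 9⟩,
  ⟨nat_lit 0xc060000000, nat_lit 3, nat_lit 0xa⟩,
  ⟨nat_lit 0xc050200000, nat_lit 1, nat_lit 0xd⟩,
  ⟨nat_lit 0xc040400000, nat_lit 3, nat_lit 0xe⟩,
  ⟨nat_lit 0xc020408000, nat_lit 1, nat_lit 0x11⟩,
  ⟨nat_lit 0xb870000000, nat_lit 2, nat_lit 0x12⟩,
  ⟨nat_lit 0xb860200000, nat_lit 3, nat_lit 0x14⟩,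
  ⟨nat_lit 0xb850400000, nat_lit 3, nat_lit 0x17⟩,
  ⟨nat_lit 0xb840600000, nat_lit 2, nat_lit 0x1a⟩,
  ⟨nat_lit 0xb840404000, nat_lit 1, nat_lit 0x1c⟩,
  ⟨nat_lit 0xb830408000, nat_lit 1, nat_lit 0x1d⟩,
  ⟨nat_lit 0xb080000000, nat_lit 4, nat_lit 0x1e⟩,
  ⟨nat_lit 0xb070200000, nat_lit 3, nat_lit 0x22⟩,
  ⟨nat_lit 0xb060400000, nat_lit 6, nat_lit 0x25⟩,
  ⟨nat_lit 0xb050600000, nat_lit 2, nat_lit 0x2b⟩,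
  ⟨nat_lit 0xb050404000, nat_lit 2, nat_lit 0x2d⟩,
  ⟨nat_lit 0xb040800000, nat_lit 3, nat_lit 0x2f⟩,
  ⟨nat_lit 0xb040604000, nat_lit 1, nat_lit 0x32⟩,
  ⟨nat_lit 0xb040408000, nat_lit 2, nat_lit 0x33⟩,
  ⟨nat_lit 0xb020408100, nat_lit 1, nat_lit 0x35⟩,
  ⟨nat_lit 0xa890000000, nat_lit 3, nat_lit 0x36⟩,
  ⟨nat_lit 0xa880200000, nat_lit 4, nat_lit 0x39⟩,
  ⟨nat_lit 0xa870400000, nat_lit 6, nat_lit 0x3d⟩,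
  ⟨nat_lit 0xa870204000, nat_lit 1, nat_lit 0x43⟩,
  ⟨nat_lit 0xa860600000, nat_lit 6, nat_lit 0x44⟩,
  ⟨nat_lit 0xa860404000, nat_lit 3, nat_lit 0x4a⟩,
  ⟨nat_lit 0xa850800000, nat_lit 3, nat_lit 0x4d⟩,
  ⟨nat_lit 0xa850604000, nat_lit 2, nat_lit 0x50⟩,
  ⟨nat_lit 0xa850408000, nat_lit 3, nat_lit 0x52⟩,
  ⟨nat_lit 0xa840804000, nat_lit 2, nat_lit 0x55⟩,
  ⟨nat_lit 0xa840608000, nat_lit 1, nat_lit 0x57⟩,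
  ⟨nat_lit 0xa840408080, nat_lit 1, nat_lit 0x58⟩,
  ⟨nat_lit 0xa0a0000000, nat_lit 4, nat_lit 0x59⟩,
  ⟨nat_lit 0xa090200000, nat_lit 4, nat_lit 0x5d⟩,
  ⟨nat_lit 0xa080400000, nat_lit 9, nat_lit 0x61⟩,
  ⟨nat_lit 0xa080204000, nat_lit 1, nat_lit 0x6a⟩,
  ⟨nat_lit 0xa070600000, nat_lit 6, nat_lit 0x6b⟩,
  ⟨nat_lit 0xa070404000, nat_lit 5, nat_lit 0x71⟩,
  ⟨nat_lit 0xa060800000, nat_lit 8, nat_lit 0x76⟩,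
  ⟨nat_lit 0xa060604000, nat_lit 4, nat_lit 0x7e⟩,
  ⟨nat_lit 0xa060408000, nat_lit 5, nat_lit 0x82⟩,
  ⟨nat_lit 0xa050804000, nat_lit 3, nat_lit 0x87⟩,
  ⟨nat_lit 0xa050608000, nat_lit 2, nat_lit 0x8a⟩,
  ⟨nat_lit 0xa050604080, nat_lit 1, nat_lit 0x8c⟩,
  ⟨nat_lit 0xa050408080, nat_lit 1, nat_lit 0x8d⟩,
  ⟨nat_lit 0xa040808000, nat_lit 3, nat_lit 0x8e⟩,
  ⟨nat_lit 0xa040408100, nat_lit 1, nat_lit 0x91⟩,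
  ⟨nat_lit 0x98b0000000, nat_lit 2, nat_lit 0x92⟩,
  ⟨nat_lit 0x98a0200000, nat_lit 5, nat_lit 0x94⟩,
  ⟨nat_lit 0x9890400000, nat_lit 8, nat_lit 0x99⟩,
  ⟨nat_lit 0x9890204000, nat_lit 2, nat_lit 0xa1⟩,
  ⟨nat_lit 0x9880600000, nat_lit 9, nat_lit 0xa3⟩,
  ⟨nat_lit 0x9880404000, nat_lit 6, nat_lit 0xac⟩,
  ⟨nat_lit 0x9870800000, nat_lit 8, nat_lit 0xb2⟩,
  ⟨nat_lit 0x9870604000, nat_lit 7, nat_lit 0xba⟩,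
  ⟨nat_lit 0x9870408000, nat_lit 5, nat_lit 0xc1⟩,
  ⟨nat_lit 0x9870404080, nat_lit 1, nat_lit 0xc6⟩,
  ⟨nat_lit 0x9860a00000, nat_lit 5, nat_lit 0xc7⟩,
  ⟨nat_lit 0x9860804000, nat_lit 7, nat_lit 0xcc⟩,
  ⟨nat_lit 0x9860608000, nat_lit 5, nat_lit 0xd3⟩,
  ⟨nat_lit 0x9860408080, nat_lit 2, nat_lit 0xd8⟩,
  ⟨nat_lit 0x9850a04000, nat_lit 1, nat_lit 0xda⟩,
  ⟨nat_lit 0x9850808000, nat_lit 4, nat_lit 0xdb⟩,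
  ⟨nat_lit 0x9850804080, nat_lit 1, nat_lit 0xdf⟩,
  ⟨nat_lit 0x9850608080, nat_lit 1, nat_lit 0xe0⟩,
  ⟨nat_lit 0x9850408100, nat_lit 1, nat_lit 0xe1⟩,
  ⟨nat_lit 0x984080c000, nat_lit 1, nat_lit 0xe2⟩,
  ⟨nat_lit 0x9840808080, nat_lit 1, nat_lit 0xe3⟩,
  ⟨nat_lit 0x90c0000000, nat_lit 4, nat_lit 0xe4⟩,
  ⟨nat_lit 0x90b0200000, nat_lit 4, nat_lit 0xe8⟩,
  ⟨nat_lit 0x90a0400000, nat_lit 0xa, nat_lit 0xec⟩,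
  ⟨nat_lit 0x90a0204000, nat_lit 2, nat_lit 0xf6⟩,
  ⟨nat_lit 0x9090600000, nat_lit 9, nat_lit 0xf8⟩,
  ⟨nat_lit 0x9090404000, nat_lit 7, nat_lit 0x101⟩,
  ⟨nat_lit 0x9080800000, nat_lit 0xd, nat_lit 0x108⟩,
  ⟨nat_lit 0x9080604000, nat_lit 8, nat_lit 0x115⟩,
  ⟨nat_lit 0x9080408000, nat_lit 8, nat_lit 0x11d⟩,
  ⟨nat_lit 0x9080404080, nat_lit 1, nat_lit 0x125⟩,
  ⟨nat_lit 0x9070a00000, nat_lit 6, nat_lit 0x126⟩,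
  ⟨nat_lit 0x9070804000, nat_lit 0xa, nat_lit 0x12c⟩,
  ⟨nat_lit 0x9070608000, nat_lit 6, nat_lit 0x136⟩,
  ⟨nat_lit 0x9070604080, nat_lit 2, nat_lit 0x13c⟩,
  ⟨nat_lit 0x9070408080, nat_lit 2, nat_lit 0x13e⟩,
  ⟨nat_lit 0x9060c00000, nat_lit 7, nat_lit 0x140⟩,
  ⟨nat_lit 0x9060a04000, nat_lit 5, nat_lit 0x147⟩,
  ⟨nat_lit 0x9060808000, nat_lit 9, nat_lit 0x14c⟩,
  ⟨nat_lit 0x9060804080, nat_lit 1, nat_lit 0x155⟩,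
  ⟨nat_lit 0x906060c000, nat_lit 1, nat_lit 0x156⟩,
  ⟨nat_lit 0x9060608080, nat_lit 2, nat_lit 0x157⟩,
  ⟨nat_lit 0x9060408100, nat_lit 2, nat_lit 0x159⟩,
  ⟨nat_lit 0x9050a08000, nat_lit 1, nat_lit 0x15b⟩,
  ⟨nat_lit 0x9050a04080, nat_lit 1, nat_lit 0x15c⟩,
  ⟨nat_lit 0x905080c000, nat_lit 2, nat_lit 0x15d⟩,
  ⟨nat_lit 0x9050808080, nat_lit 2, nat_lit 0x15f⟩,
  ⟨nat_lit 0x9040810000, nat_lit 2, nat_lit 0x161⟩,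
  ⟨nat_lit 0x9040808100, nat_lit 1, nat_lit 0x163⟩,
  ⟨nat_lit 0x88d0000000, nat_lit 1, nat_lit 0x164⟩,
  ⟨nat_lit 0x88c0200000, nat_lit 4, nat_lit 0x165⟩,
  ⟨nat_lit 0x88b0400000, nat_lit 7, nat_lit 0x169⟩,
  ⟨nat_lit 0x88b0204000, nat_lit 2, nat_lit 0x170⟩,
  ⟨nat_lit 0x88a0600000, nat_lit 0xa, nat_lit 0x172⟩,
  ⟨nat_lit 0x88a0404000, nat_lit 8, nat_lit 0x17c⟩,
  ⟨nat_lit 0x8890800000, nat_lit 0xb, nat_lit 0x184⟩,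
  ⟨nat_lit 0x8890604000, nat_lit 0xa, nat_lit 0x18f⟩,
  ⟨nat_lit 0x8890408000, nat_lit 6, nat_lit 0x199⟩,
  ⟨nat_lit 0x8890404080, nat_lit 2, nat_lit 0x19f⟩,
  ⟨nat_lit 0x8880a00000, nat_lit 0xa, nat_lit 0x1a1⟩,
  ⟨nat_lit 0x8880804000, nat_lit 0xd, nat_lit 0x1ab⟩,
  ⟨nat_lit 0x8880608000, nat_lit 9, nat_lit 0x1b8⟩,
  ⟨nat_lit 0x8880604080, nat_lit 2, nat_lit 0x1c1⟩,
  ⟨nat_lit 0x8880408080, nat_lit 3, nat_lit 0x1c3⟩,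
  ⟨nat_lit 0x8870c00000, nat_lit 6, nat_lit 0x1c6⟩,
  ⟨nat_lit 0x8870a04000, nat_lit 9, nat_lit 0x1cc⟩,
  ⟨nat_lit 0x8870808000, nat_lit 0xb, nat_lit 0x1d5⟩,
  ⟨nat_lit 0x8870804080, nat_lit 3, nat_lit 0x1e0⟩,
  ⟨nat_lit 0x887060c000, nat_lit 2, nat_lit 0x1e3⟩,
  ⟨nat_lit 0x8870608080, nat_lit 3, nat_lit 0x1e5⟩,
  ⟨nat_lit 0x8870408100, nat_lit 1, nat_lit 0x1e8⟩,
  ⟨nat_lit 0x8860c04000, nat_lit 5, nat_lit 0x1e9⟩,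
  ⟨nat_lit 0x8860a08000, nat_lit 7, nat_lit 0x1ee⟩,
  ⟨nat_lit 0x8860a04080, nat_lit 1, nat_lit 0x1f5⟩,
  ⟨nat_lit 0x886080c000, nat_lit 5, nat_lit 0x1f6⟩,
  ⟨nat_lit 0x8860808080, nat_lit 4, nat_lit 0x1fb⟩,
  ⟨nat_lit 0x8860608100, nat_lit 1, nat_lit 0x1ff⟩,
  ⟨nat_lit 0x8850a08080, nat_lit 1, nat_lit 0x200⟩,
  ⟨nat_lit 0x8850810000, nat_lit 2, nat_lit 0x201⟩,
  ⟨nat_lit 0x885080c080, nat_lit 1, nat_lit 0x203⟩,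
  ⟨nat_lit 0x8850808100, nat_lit 1, nat_lit 0x204⟩,
  ⟨nat_lit 0x8840810080, nat_lit 1, nat_lit 0x205⟩,
  ⟨nat_lit 0x80e0000000, nat_lit 2, nat_lit 0x206⟩,
  ⟨nat_lit 0x80d0200000, nat_lit 3, nat_lit 0x208⟩,
  ⟨nat_lit 0x80c0400000, nat_lit 8, nat_lit 0x20b⟩,
  ⟨nat_lit 0x80c0204000, nat_lit 1, nat_lit 0x213⟩,
  ⟨nat_lit 0x80b0600000, nat_lit 8, nat_lit 0x214⟩,
  ⟨nat_lit 0x80b0404000, nat_lit 7, nat_lit 0x21c⟩,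
  ⟨nat_lit 0x80b0204080, nat_lit 1, nat_lit 0x223⟩,
  ⟨nat_lit 0x80a0800000, nat_lit 0xe, nat_lit 0x224⟩,
  ⟨nat_lit 0x80a0604000, nat_lit 0xa, nat_lit 0x232⟩,
  ⟨nat_lit 0x80a0408000, nat_lit 8, nat_lit 0x23c⟩,
  ⟨nat_lit 0x80a0404080, nat_lit 1, nat_lit 0x244⟩,
  ⟨nat_lit 0x8090a00000, nat_lit 0xa, nat_lit 0x245⟩,
  ⟨nat_lit 0x8090804000, nat_lit 0xe, nat_lit 0x24f⟩,
  ⟨nat_lit 0x8090608000, nat_lit 9, nat_lit 0x25d⟩,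
  ⟨nat_lit 0x8090604080, nat_lit 3, nat_lit 0x266⟩,
  ⟨nat_lit 0x8090408080, nat_lit 3, nat_lit 0x269⟩,
  ⟨nat_lit 0x8080c00000, nat_lit 0xc, nat_lit 0x26c⟩,
  ⟨nat_lit 0x8080a04000, nat_lit 0xc, nat_lit 0x278⟩,
  ⟨nat_lit 0x8080808000, nat_lit 0x10, nat_lit 0x284⟩,
  ⟨nat_lit 0x8080804080, nat_lit 3, nat_lit 0x294⟩,
  ⟨nat_lit 0x808060c000, nat_lit 2, nat_lit 0x297⟩,
  ⟨nat_lit 0x8080608080, nat_lit 4, nat_lit 0x299⟩,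
  ⟨nat_lit 0x8080408100, nat_lit 2, nat_lit 0x29d⟩,
  ⟨nat_lit 0x8070e00000, nat_lit 1, nat_lit 0x29f⟩,
  ⟨nat_lit 0x8070c04000, nat_lit 9, nat_lit 0x2a0⟩,
  ⟨nat_lit 0x8070a08000, nat_lit 9, nat_lit 0x2a9⟩,
  ⟨nat_lit 0x8070a04080, nat_lit 4, nat_lit 0x2b2⟩,
  ⟨nat_lit 0x807080c000, nat_lit 7, nat_lit 0x2b6⟩,
  ⟨nat_lit 0x8070808080, nat_lit 5, nat_lit 0x2bd⟩,
  ⟨nat_lit 0x807060c080, nat_lit 1, nat_lit 0x2c2⟩,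
  ⟨nat_lit 0x8070608100, nat_lit 1, nat_lit 0x2c3⟩,
  ⟨nat_lit 0x8060c08000, nat_lit 8, nat_lit 0x2c4⟩,
  ⟨nat_lit 0x8060a0c000, nat_lit 4, nat_lit 0x2cc⟩,
  ⟨nat_lit 0x8060a08080, nat_lit 3, nat_lit 0x2d0⟩,
  ⟨nat_lit 0x8060810000, nat_lit 5, nat_lit 0x2d3⟩,
  ⟨nat_lit 0x806080c080, nat_lit 2, nat_lit 0x2d8⟩,
  ⟨nat_lit 0x8060808100, nat_lit 3, nat_lit 0x2da⟩,
  ⟨nat_lit 0x8050a0c080, nat_lit 1, nat_lit 0x2dd⟩,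
  ⟨nat_lit 0x8050810080, nat_lit 1, nat_lit 0x2de⟩,
  ⟨nat_lit 0x8040810100, nat_lit 1, nat_lit 0x2df⟩,
  ⟨nat_lit 0x78e0200000, nat_lit 1, nat_lit 0x2e0⟩,
  ⟨nat_lit 0x78d0400000, nat_lit 3, nat_lit 0x2e1⟩,
  ⟨nat_lit 0x78d0204000, nat_lit 2, nat_lit 0x2e4⟩,
  ⟨nat_lit 0x78c0600000, nat_lit 7, nat_lit 0x2e6⟩,
  ⟨nat_lit 0x78c0404000, nat_lit 5, nat_lit 0x2ed⟩,
  ⟨nat_lit 0x78b0800000, nat_lit 8, nat_lit 0x2f2⟩,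
  ⟨nat_lit 0x78b0604000, nat_lit 9, nat_lit 0x2fa⟩,
  ⟨nat_lit 0x78b0408000, nat_lit 5, nat_lit 0x303⟩,
  ⟨nat_lit 0x78b0404080, nat_lit 2, nat_lit 0x308⟩,
  ⟨nat_lit 0x78a0a00000, nat_lit 0xb, nat_lit 0x30a⟩,
  ⟨nat_lit 0x78a0804000, nat_lit 0xe, nat_lit 0x315⟩,
  ⟨nat_lit 0x78a0608000, nat_lit 9, nat_lit 0x323⟩,
  ⟨nat_lit 0x78a0604080, nat_lit 3, nat_lit 0x32c⟩,
  ⟨nat_lit 0x78a0408080, nat_lit 3, nat_lit 0x32f⟩,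
  ⟨nat_lit 0x7890c00000, nat_lit 9, nat_lit 0x332⟩,
  ⟨nat_lit 0x7890a04000, nat_lit 0xd, nat_lit 0x33b⟩,
  ⟨nat_lit 0x7890808000, nat_lit 0xe, nat_lit 0x348⟩,
  ⟨nat_lit 0x7890804080, nat_lit 5, nat_lit 0x356⟩,
  ⟨nat_lit 0x789060c000, nat_lit 4, nat_lit 0x35b⟩,
  ⟨nat_lit 0x7890608080, nat_lit 4, nat_lit 0x35f⟩,
  ⟨nat_lit 0x7890408100, nat_lit 1, nat_lit 0x363⟩,
  ⟨nat_lit 0x7880e00000, nat_lit 5, nat_lit 0x364⟩,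
  ⟨nat_lit 0x7880c04000, nat_lit 0xd, nat_lit 0x369⟩,
  ⟨nat_lit 0x7880a08000, nat_lit 0xe, nat_lit 0x376⟩,
  ⟨nat_lit 0x7880a04080, nat_lit 4, nat_lit 0x384⟩,
  ⟨nat_lit 0x788080c000, nat_lit 9, nat_lit 0x388⟩,
  ⟨nat_lit 0x7880808080, nat_lit 7, nat_lit 0x391⟩,
  ⟨nat_lit 0x788060c080, nat_lit 1, nat_lit 0x398⟩,
  ⟨nat_lit 0x7880608100, nat_lit 2, nat_lit 0x399⟩,
  ⟨nat_lit 0x7870e04000, nat_lit 4, nat_lit 0x39b⟩,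
  ⟨nat_lit 0x7870c08000, nat_lit 9, nat_lit 0x39f⟩,
  ⟨nat_lit 0x7870c04080, nat_lit 3, nat_lit 0x3a8⟩,
  ⟨nat_lit 0x7870a0c000, nat_lit 7, nat_lit 0x3ab⟩,
  ⟨nat_lit 0x7870a08080, nat_lit 5, nat_lit 0x3b2⟩,
  ⟨nat_lit 0x7870810000, nat_lit 5, nat_lit 0x3b7⟩,
  ⟨nat_lit 0x787080c080, nat_lit 4, nat_lit 0x3bc⟩,
  ⟨nat_lit 0x7870808100, nat_lit 2, nat_lit 0x3c0⟩,
  ⟨nat_lit 0x7860c0c000, nat_lit 6, nat_lit 0x3c2⟩,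
  ⟨nat_lit 0x7860c08080, nat_lit 3, nat_lit 0x3c8⟩,
  ⟨nat_lit 0x7860a10000, nat_lit 3, nat_lit 0x3cb⟩,
  ⟨nat_lit 0x7860a0c080, nat_lit 2, nat_lit 0x3ce⟩,
  ⟨nat_lit 0x7860a08100, nat_lit 2, nat_lit 0x3d0⟩,
  ⟨nat_lit 0x7860810080, nat_lit 3, nat_lit 0x3d2⟩,
  ⟨nat_lit 0x786080c100, nat_lit 1, nat_lit 0x3d5⟩,
  ⟨nat_lit 0x7850810100, nat_lit 1, nat_lit 0x3d6⟩,
  ⟨nat_lit 0x70e0400000, nat_lit 3, nat_lit 0x3d7⟩,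
  ⟨nat_lit 0x70d0600000, nat_lit 3, nat_lit 0x3da⟩,
  ⟨nat_lit 0x70d0404000, nat_lit 3, nat_lit 0x3dd⟩,
  ⟨nat_lit 0x70c0800000, nat_lit 9, nat_lit 0x3e0⟩,
  ⟨nat_lit 0x70c0604000, nat_lit 5, nat_lit 0x3e9⟩,
  ⟨nat_lit 0x70c0408000, nat_lit 5, nat_lit 0x3ee⟩,
  ⟨nat_lit 0x70c0404080, nat_lit 1, nat_lit 0x3f3⟩,
  ⟨nat_lit 0x70b0a00000, nat_lit 7, nat_lit 0x3f4⟩,
  ⟨nat_lit 0x70b0804000, nat_lit 0xb, nat_lit 0x3fb⟩,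
  ⟨nat_lit 0x70b0608000, nat_lit 7, nat_lit 0x406⟩,
  ⟨nat_lit 0x70b0604080, nat_lit 3, nat_lit 0x40d⟩,
  ⟨nat_lit 0x70b0408080, nat_lit 2, nat_lit 0x410⟩,
  ⟨nat_lit 0x70a0c00000, nat_lit 0xc, nat_lit 0x412⟩,
  ⟨nat_lit 0x70a0a04000, nat_lit 0xd, nat_lit 0x41e⟩,
  ⟨nat_lit 0x70a0808000, nat_lit 0xf, nat_lit 0x42b⟩,
  ⟨nat_lit 0x70a0804080, nat_lit 3, nat_lit 0x43a⟩,
  ⟨nat_lit 0x70a060c000, nat_lit 2, nat_lit 0x43d⟩,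
  ⟨nat_lit 0x70a0608080, nat_lit 4, nat_lit 0x43f⟩,
  ⟨nat_lit 0x70a0408100, nat_lit 2, nat_lit 0x443⟩,
  ⟨nat_lit 0x7090e00000, nat_lit 5, nat_lit 0x445⟩,
  ⟨nat_lit 0x7090c04000, nat_lit 0xd, nat_lit 0x44a⟩,
  ⟨nat_lit 0x7090a08000, nat_lit 0xd, nat_lit 0x457⟩,
  ⟨nat_lit 0x7090a04080, nat_lit 5, nat_lit 0x464⟩,
  ⟨nat_lit 0x709080c000, nat_lit 9, nat_lit 0x469⟩,
  ⟨nat_lit 0x7090808080, nat_lit 7, nat_lit 0x472⟩,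
  ⟨nat_lit 0x709060c080, nat_lit 2, nat_lit 0x479⟩,
  ⟨nat_lit 0x7090608100, nat_lit 1, nat_lit 0x47b⟩,
  ⟨nat_lit 0x7081000000, nat_lit 5, nat_lit 0x47c⟩,
  ⟨nat_lit 0x7080e04000, nat_lit 7, nat_lit 0x481⟩,
  ⟨nat_lit 0x7080c08000, nat_lit 0x10, nat_lit 0x488⟩,
  ⟨nat_lit 0x7080c04080, nat_lit 3, nat_lit 0x498⟩,
  ⟨nat_lit 0x7080a0c000, nat_lit 9, nat_lit 0x49b⟩,
  ⟨nat_lit 0x7080a08080, nat_lit 7, nat_lit 0x4a4⟩,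
  ⟨nat_lit 0x7080810000, nat_lit 8, nat_lit 0x4ab⟩,
  ⟨nat_lit 0x708080c080, nat_lit 4, nat_lit 0x4b3⟩,
  ⟨nat_lit 0x7080808100, nat_lit 4, nat_lit 0x4b7⟩,
  ⟨nat_lit 0x7070e08000, nat_lit 2, nat_lit 0x4bb⟩,
  ⟨nat_lit 0x7070e04080, nat_lit 3, nat_lit 0x4bd⟩,
  ⟨nat_lit 0x7070c0c000, nat_lit 8, nat_lit 0x4c0⟩,
  ⟨nat_lit 0x7070c08080, nat_lit 5, nat_lit 0x4c8⟩,
  ⟨nat_lit 0x7070a10000, nat_lit 5, nat_lit 0x4cd⟩,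
  ⟨nat_lit 0x7070a0c080, nat_lit 4, nat_lit 0x4d2⟩,
  ⟨nat_lit 0x7070a08100, nat_lit 1, nat_lit 0x4d6⟩,
  ⟨nat_lit 0x7070810080, nat_lit 3, nat_lit 0x4d7⟩,
  ⟨nat_lit 0x707080c100, nat_lit 2, nat_lit 0x4da⟩,
  ⟨nat_lit 0x7060c10000, nat_lit 6, nat_lit 0x4dc⟩,
  ⟨nat_lit 0x7060c0c080, nat_lit 2, nat_lit 0x4e2⟩,
  ⟨nat_lit 0x7060c08100, nat_lit 3, nat_lit 0x4e4⟩,
  ⟨nat_lit 0x7060a10080, nat_lit 2, nat_lit 0x4e7⟩,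
  ⟨nat_lit 0x7060a0c100, nat_lit 1, nat_lit 0x4e9⟩,
  ⟨nat_lit 0x7060810100, nat_lit 2, nat_lit 0x4ea⟩,
  ⟨nat_lit 0x7040810200, nat_lit 1, nat_lit 0x4ec⟩,
  ⟨nat_lit 0x68d0800000, nat_lit 1, nat_lit 0x4ed⟩,
  ⟨nat_lit 0x68d0604000, nat_lit 3, nat_lit 0x4ee⟩,
  ⟨nat_lit 0x68d0404080, nat_lit 1, nat_lit 0x4f1⟩,
  ⟨nat_lit 0x68c0a00000, nat_lit 5, nat_lit 0x4f2⟩,
  ⟨nat_lit 0x68c0804000, nat_lit 6, nat_lit 0x4f7⟩,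
  ⟨nat_lit 0x68c0608000, nat_lit 4, nat_lit 0x4fd⟩,
  ⟨nat_lit 0x68c0604080, nat_lit 1, nat_lit 0x501⟩,
  ⟨nat_lit 0x68c0408080, nat_lit 1, nat_lit 0x502⟩,
  ⟨nat_lit 0x68b0c00000, nat_lit 5, nat_lit 0x503⟩,
  ⟨nat_lit 0x68b0a04000, nat_lit 9, nat_lit 0x508⟩,
  ⟨nat_lit 0x68b0808000, nat_lit 8, nat_lit 0x511⟩,
  ⟨nat_lit 0x68b0804080, nat_lit 4, nat_lit 0x519⟩,
  ⟨nat_lit 0x68b060c000, nat_lit 3, nat_lit 0x51d⟩,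
  ⟨nat_lit 0x68b0608080, nat_lit 3, nat_lit 0x520⟩,
  ⟨nat_lit 0x68a0e00000, nat_lit 6, nat_lit 0x523⟩,
  ⟨nat_lit 0x68a0c04000, nat_lit 0xc, nat_lit 0x529⟩,
  ⟨nat_lit 0x68a0a08000, nat_lit 0xc, nat_lit 0x535⟩,
  ⟨nat_lit 0x68a0a04080, nat_lit 4, nat_lit 0x541⟩,
  ⟨nat_lit 0x68a080c000, nat_lit 8, nat_lit 0x545⟩,
  ⟨nat_lit 0x68a0808080, nat_lit 6, nat_lit 0x54d⟩,
  ⟨nat_lit 0x68a060c080, nat_lit 1, nat_lit 0x553⟩,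
  ⟨nat_lit 0x68a0608100, nat_lit 1, nat_lit 0x554⟩,
  ⟨nat_lit 0x6891000000, nat_lit 3, nat_lit 0x555⟩,
  ⟨nat_lit 0x6890e04000, nat_lit 8, nat_lit 0x558⟩,
  ⟨nat_lit 0x6890c08000, nat_lit 0xc, nat_lit 0x560⟩,
  ⟨nat_lit 0x6890c04080, nat_lit 5, nat_lit 0x56c⟩,
  ⟨nat_lit 0x6890a0c000, nat_lit 0xa, nat_lit 0x571⟩,
  ⟨nat_lit 0x6890a08080, nat_lit 6, nat_lit 0x57b⟩,
  ⟨nat_lit 0x6890810000, nat_lit 5, nat_lit 0x581⟩,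
  ⟨nat_lit 0x689080c080, nat_lit 5, nat_lit 0x586⟩,
  ⟨nat_lit 0x6890808100, nat_lit 2, nat_lit 0x58b⟩,
  ⟨nat_lit 0x689060c100, nat_lit 1, nat_lit 0x58d⟩,
  ⟨nat_lit 0x6881004000, nat_lit 4, nat_lit 0x58e⟩,
  ⟨nat_lit 0x6880e08000, nat_lit 8, nat_lit 0x592⟩,
  ⟨nat_lit 0x6880e04080, nat_lit 3, nat_lit 0x59a⟩,
  ⟨nat_lit 0x6880c0c000, nat_lit 0xb, nat_lit 0x59d⟩,
  ⟨nat_lit 0x6880c08080, nat_lit 7, nat_lit 0x5a8⟩,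
  ⟨nat_lit 0x6880a10000, nat_lit 7, nat_lit 0x5af⟩,
  ⟨nat_lit 0x6880a0c080, nat_lit 5, nat_lit 0x5b6⟩,
  ⟨nat_lit 0x6880a08100, nat_lit 3, nat_lit 0x5bb⟩,
  ⟨nat_lit 0x6880810080, nat_lit 4, nat_lit 0x5be⟩,
  ⟨nat_lit 0x688080c100, nat_lit 2, nat_lit 0x5c2⟩,
  ⟨nat_lit 0x6870e0c000, nat_lit 3, nat_lit 0x5c4⟩,
  ⟨nat_lit 0x6870e08080, nat_lit 1, nat_lit 0x5c7⟩,
  ⟨nat_lit 0x6870c10000, nat_lit 6, nat_lit 0x5c8⟩,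
  ⟨nat_lit 0x6870c0c080, nat_lit 5, nat_lit 0x5ce⟩,
  ⟨nat_lit 0x6870c08100, nat_lit 1, nat_lit 0x5d3⟩,
  ⟨nat_lit 0x6870a14000, nat_lit 1, nat_lit 0x5d4⟩,
  ⟨nat_lit 0x6870a10080, nat_lit 3, nat_lit 0x5d5⟩,
  ⟨nat_lit 0x6870a0c100, nat_lit 2, nat_lit 0x5d8⟩,
  ⟨nat_lit 0x6870810100, nat_lit 2, nat_lit 0x5da⟩,
  ⟨nat_lit 0x6860c14000, nat_lit 3, nat_lit 0x5dc⟩,
  ⟨nat_lit 0x6860c10080, nat_lit 3, nat_lit 0x5df⟩,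
  ⟨nat_lit 0x6860c0c100, nat_lit 2, nat_lit 0x5e2⟩,
  ⟨nat_lit 0x6860a10100, nat_lit 1, nat_lit 0x5e4⟩,
  ⟨nat_lit 0x6860810180, nat_lit 1, nat_lit 0x5e5⟩,
  ⟨nat_lit 0x60c0c00000, nat_lit 5, nat_lit 0x5e6⟩,
  ⟨nat_lit 0x60c0a04000, nat_lit 2, nat_lit 0x5eb⟩,
  ⟨nat_lit 0x60c0808000, nat_lit 5, nat_lit 0x5ed⟩,
  ⟨nat_lit 0x60c0608080, nat_lit 1, nat_lit 0x5f2⟩,
  ⟨nat_lit 0x60c0408100, nat_lit 1, nat_lit 0x5f3⟩,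
  ⟨nat_lit 0x60b0e00000, nat_lit 2, nat_lit 0x5f4⟩,
  ⟨nat_lit 0x60b0c04000, nat_lit 6, nat_lit 0x5f6⟩,
  ⟨nat_lit 0x60b0a08000, nat_lit 7, nat_lit 0x5fc⟩,
  ⟨nat_lit 0x60b0a04080, nat_lit 3, nat_lit 0x603⟩,
  ⟨nat_lit 0x60b080c000, nat_lit 4, nat_lit 0x606⟩,
  ⟨nat_lit 0x60b0808080, nat_lit 3, nat_lit 0x60a⟩,
  ⟨nat_lit 0x60b060c080, nat_lit 1, nat_lit 0x60d⟩,
  ⟨nat_lit 0x60b0608100, nat_lit 1, nat_lit 0x60e⟩,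
  ⟨nat_lit 0x60a1000000, nat_lit 5, nat_lit 0x60f⟩,
  ⟨nat_lit 0x60a0e04000, nat_lit 7, nat_lit 0x614⟩,
  ⟨nat_lit 0x60a0c08000, nat_lit 0xc, nat_lit 0x61b⟩,
  ⟨nat_lit 0x60a0c04080, nat_lit 2, nat_lit 0x627⟩,
  ⟨nat_lit 0x60a0a0c000, nat_lit 6, nat_lit 0x629⟩,
  ⟨nat_lit 0x60a0a08080, nat_lit 5, nat_lit 0x62f⟩,
  ⟨nat_lit 0x60a0810000, nat_lit 6, nat_lit 0x634⟩,
  ⟨nat_lit 0x60a080c080, nat_lit 3, nat_lit 0x63a⟩,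
  ⟨nat_lit 0x60a0808100, nat_lit 3, nat_lit 0x63d⟩,
  ⟨nat_lit 0x6091004000, nat_lit 4, nat_lit 0x640⟩,
  ⟨nat_lit 0x6090e08000, nat_lit 6, nat_lit 0x644⟩,
  ⟨nat_lit 0x6090e04080, nat_lit 3, nat_lit 0x64a⟩,
  ⟨nat_lit 0x6090c0c000, nat_lit 0xa, nat_lit 0x64d⟩,
  ⟨nat_lit 0x6090c08080, nat_lit 6, nat_lit 0x657⟩,
  ⟨nat_lit 0x6090a10000, nat_lit 5, nat_lit 0x65d⟩,
  ⟨nat_lit 0x6090a0c080, nat_lit 5, nat_lit 0x662⟩,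
  ⟨nat_lit 0x6090a08100, nat_lit 2, nat_lit 0x667⟩,
  ⟨nat_lit 0x6090810080, nat_lit 3, nat_lit 0x669⟩,
  ⟨nat_lit 0x609080c100, nat_lit 2, nat_lit 0x66c⟩,
  ⟨nat_lit 0x6081008000, nat_lit 6, nat_lit 0x66e⟩,
  ⟨nat_lit 0x6080e0c000, nat_lit 5, nat_lit 0x674⟩,
  ⟨nat_lit 0x6080e08080, nat_lit 4, nat_lit 0x679⟩,
  ⟨nat_lit 0x6080c10000, nat_lit 0xa, nat_lit 0x67d⟩,
  ⟨nat_lit 0x6080c0c080, nat_lit 5, nat_lit 0x687⟩,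
  ⟨nat_lit 0x6080c08100, nat_lit 4, nat_lit 0x68c⟩,
  ⟨nat_lit 0x6080a14000, nat_lit 1, nat_lit 0x690⟩,
  ⟨nat_lit 0x6080a10080, nat_lit 4, nat_lit 0x691⟩,
  ⟨nat_lit 0x6080a0c100, nat_lit 2, nat_lit 0x695⟩,
  ⟨nat_lit 0x6080810100, nat_lit 3, nat_lit 0x697⟩,
  ⟨nat_lit 0x6070e10000, nat_lit 1, nat_lit 0x69a⟩,
  ⟨nat_lit 0x6070e0c080, nat_lit 2, nat_lit 0x69b⟩,
  ⟨nat_lit 0x6070c14000, nat_lit 3, nat_lit 0x69d⟩,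
  ⟨nat_lit 0x6070c10080, nat_lit 4, nat_lit 0x6a0⟩,
  ⟨nat_lit 0x6070c0c100, nat_lit 2, nat_lit 0x6a4⟩,
  ⟨nat_lit 0x6070a14080, nat_lit 1, nat_lit 0x6a6⟩,
  ⟨nat_lit 0x6070a10100, nat_lit 1, nat_lit 0x6a7⟩,
  ⟨nat_lit 0x6070a0c180, nat_lit 1, nat_lit 0x6a8⟩,
  ⟨nat_lit 0x6070810180, nat_lit 1, nat_lit 0x6a9⟩,
  ⟨nat_lit 0x6060c18000, nat_lit 3, nat_lit 0x6aa⟩,
  ⟨nat_lit 0x6060c14080, nat_lit 1, nat_lit 0x6ad⟩,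
  ⟨nat_lit 0x6060c10100, nat_lit 3, nat_lit 0x6ae⟩,
  ⟨nat_lit 0x6060810200, nat_lit 1, nat_lit 0x6b1⟩,
  ⟨nat_lit 0x58b0e04000, nat_lit 3, nat_lit 0x6b2⟩,
  ⟨nat_lit 0x58b0c08000, nat_lit 2, nat_lit 0x6b5⟩,
  ⟨nat_lit 0x58b0c04080, nat_lit 3, nat_lit 0x6b7⟩,
  ⟨nat_lit 0x58b0a0c000, nat_lit 3, nat_lit 0x6ba⟩,
  ⟨nat_lit 0x58b0a08080, nat_lit 2, nat_lit 0x6bd⟩,
  ⟨nat_lit 0x58b080c080, nat_lit 2, nat_lit 0x6bf⟩,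
  ⟨nat_lit 0x58a1200000, nat_lit 1, nat_lit 0x6c1⟩,
  ⟨nat_lit 0x58a1004000, nat_lit 3, nat_lit 0x6c2⟩,
  ⟨nat_lit 0x58a0e08000, nat_lit 5, nat_lit 0x6c5⟩,
  ⟨nat_lit 0x58a0e04080, nat_lit 2, nat_lit 0x6ca⟩,
  ⟨nat_lit 0x58a0c0c000, nat_lit 6, nat_lit 0x6cc⟩,
  ⟨nat_lit 0x58a0c08080, nat_lit 4, nat_lit 0x6d2⟩,
  ⟨nat_lit 0x58a0a10000, nat_lit 4, nat_lit 0x6d6⟩,
  ⟨nat_lit 0x58a0a0c080, nat_lit 3, nat_lit 0x6da⟩,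
  ⟨nat_lit 0x58a0a08100, nat_lit 1, nat_lit 0x6dd⟩,
  ⟨nat_lit 0x58a0810080, nat_lit 2, nat_lit 0x6de⟩,
  ⟨nat_lit 0x58a080c100, nat_lit 1, nat_lit 0x6e0⟩,
  ⟨nat_lit 0x5891204000, nat_lit 1, nat_lit 0x6e1⟩,
  ⟨nat_lit 0x5891008000, nat_lit 3, nat_lit 0x6e2⟩,
  ⟨nat_lit 0x5891004080, nat_lit 2, nat_lit 0x6e5⟩,
  ⟨nat_lit 0x5890e0c000, nat_lit 5, nat_lit 0x6e7⟩,
  ⟨nat_lit 0x5890e08080, nat_lit 3, nat_lit 0x6ec⟩,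
  ⟨nat_lit 0x5890c10000, nat_lit 5, nat_lit 0x6ef⟩,
  ⟨nat_lit 0x5890c0c080, nat_lit 5, nat_lit 0x6f4⟩,
  ⟨nat_lit 0x5890c08100, nat_lit 1, nat_lit 0x6f9⟩,
  ⟨nat_lit 0x5890a14000, nat_lit 2, nat_lit 0x6fa⟩,
  ⟨nat_lit 0x5890a10080, nat_lit 3, nat_lit 0x6fc⟩,
  ⟨nat_lit 0x5890a0c100, nat_lit 2, nat_lit 0x6ff⟩,
  ⟨nat_lit 0x5890810100, nat_lit 1, nat_lit 0x701⟩,
  ⟨nat_lit 0x589080c180, nat_lit 1, nat_lit 0x702⟩,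
  ⟨nat_lit 0x588100c000, nat_lit 3, nat_lit 0x703⟩,
  ⟨nat_lit 0x5881008080, nat_lit 2, nat_lit 0x706⟩,
  ⟨nat_lit 0x5880e10000, nat_lit 4, nat_lit 0x708⟩,
  ⟨nat_lit 0x5880e0c080, nat_lit 3, nat_lit 0x70c⟩,
  ⟨nat_lit 0x5880e08100, nat_lit 1, nat_lit 0x70f⟩,
  ⟨nat_lit 0x5880c14000, nat_lit 4, nat_lit 0x710⟩,
  ⟨nat_lit 0x5880c10080, nat_lit 5, nat_lit 0x714⟩,
  ⟨nat_lit 0x5880c0c100, nat_lit 3, nat_lit 0x719⟩,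
  ⟨nat_lit 0x5880a14080, nat_lit 1, nat_lit 0x71c⟩,
  ⟨nat_lit 0x5880a10100, nat_lit 2, nat_lit 0x71d⟩,
  ⟨nat_lit 0x5880810180, nat_lit 1, nat_lit 0x71f⟩,
  ⟨nat_lit 0x5870e14000, nat_lit 1, nat_lit 0x720⟩,
  ⟨nat_lit 0x5870e10080, nat_lit 1, nat_lit 0x721⟩,
  ⟨nat_lit 0x5870c18000, nat_lit 1, nat_lit 0x722⟩,
  ⟨nat_lit 0x5870c14080, nat_lit 2, nat_lit 0x723⟩,
  ⟨nat_lit 0x5870c10100, nat_lit 2, nat_lit 0x725⟩,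
  ⟨nat_lit 0x5870c0c180, nat_lit 1, nat_lit 0x727⟩,
  ⟨nat_lit 0x5870a10180, nat_lit 1, nat_lit 0x728⟩,
  ⟨nat_lit 0x5860c18080, nat_lit 2, nat_lit 0x729⟩,
  ⟨nat_lit 0x5860c14100, nat_lit 1, nat_lit 0x72b⟩,
  ⟨nat_lit 0x5860c10180, nat_lit 1, nat_lit 0x72c⟩,
  ⟨nat_lit 0x50a1400000, nat_lit 1, nat_lit 0x72d⟩,
  ⟨nat_lit 0x50a1204000, nat_lit 1, nat_lit 0x72e⟩,
  ⟨nat_lit 0x50a1008000, nat_lit 3, nat_lit 0x72f⟩,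
  ⟨nat_lit 0x50a0e0c000, nat_lit 2, nat_lit 0x732⟩,
  ⟨nat_lit 0x50a0e08080, nat_lit 1, nat_lit 0x734⟩,
  ⟨nat_lit 0x50a0c10000, nat_lit 4, nat_lit 0x735⟩,
  ⟨nat_lit 0x50a0c0c080, nat_lit 1, nat_lit 0x739⟩,
  ⟨nat_lit 0x50a0c08100, nat_lit 2, nat_lit 0x73a⟩,
  ⟨nat_lit 0x50a0a10080, nat_lit 1, nat_lit 0x73c⟩,
  ⟨nat_lit 0x50a0810100, nat_lit 2, nat_lit 0x73d⟩,
  ⟨nat_lit 0x509100c000, nat_lit 2, nat_lit 0x73f⟩,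
  ⟨nat_lit 0x5091008080, nat_lit 1, nat_lit 0x741⟩,
  ⟨nat_lit 0x5090e10000, nat_lit 2, nat_lit 0x742⟩,
  ⟨nat_lit 0x5090e0c080, nat_lit 2, nat_lit 0x744⟩,
  ⟨nat_lit 0x5090c14000, nat_lit 2, nat_lit 0x746⟩,
  ⟨nat_lit 0x5090c10080, nat_lit 3, nat_lit 0x748⟩,
  ⟨nat_lit 0x5090c0c100, nat_lit 2, nat_lit 0x74b⟩,
  ⟨nat_lit 0x5090a10100, nat_lit 1, nat_lit 0x74d⟩,
  ⟨nat_lit 0x5090a0c180, nat_lit 1, nat_lit 0x74e⟩,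
  ⟨nat_lit 0x5081010000, nat_lit 3, nat_lit 0x74f⟩,
  ⟨nat_lit 0x508100c080, nat_lit 1, nat_lit 0x752⟩,
  ⟨nat_lit 0x5081008100, nat_lit 2, nat_lit 0x753⟩,
  ⟨nat_lit 0x5080e14000, nat_lit 1, nat_lit 0x755⟩,
  ⟨nat_lit 0x5080e10080, nat_lit 2, nat_lit 0x756⟩,
  ⟨nat_lit 0x5080e0c100, nat_lit 1, nat_lit 0x758⟩,
  ⟨nat_lit 0x5080c18000, nat_lit 3, nat_lit 0x759⟩,
  ⟨nat_lit 0x5080c14080, nat_lit 2, nat_lit 0x75c⟩,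
  ⟨nat_lit 0x5080c10100, nat_lit 3, nat_lit 0x75e⟩,
  ⟨nat_lit 0x5080a10180, nat_lit 1, nat_lit 0x761⟩,
  ⟨nat_lit 0x5080810200, nat_lit 1, nat_lit 0x762⟩,
  ⟨nat_lit 0x5070e0c180, nat_lit 1, nat_lit 0x763⟩,
  ⟨nat_lit 0x5070c18080, nat_lit 1, nat_lit 0x764⟩,
  ⟨nat_lit 0x5070c14100, nat_lit 1, nat_lit 0x765⟩,
  ⟨nat_lit 0x5070c10180, nat_lit 1, nat_lit 0x766⟩,
  ⟨nat_lit 0x5060c18100, nat_lit 2, nat_lit 0x767⟩,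
  ⟨nat_lit 0x5060c10200, nat_lit 1, nat_lit 0x769⟩,
  ⟨nat_lit 0x489100c080, nat_lit 1, nat_lit 0x76a⟩,
  ⟨nat_lit 0x4890e14000, nat_lit 1, nat_lit 0x76b⟩,
  ⟨nat_lit 0x4890e0c100, nat_lit 1, nat_lit 0x76c⟩,
  ⟨nat_lit 0x4890c14080, nat_lit 1, nat_lit 0x76d⟩,
  ⟨nat_lit 0x4890c0c180, nat_lit 1, nat_lit 0x76e⟩,
  ⟨nat_lit 0x4890a14100, nat_lit 1, nat_lit 0x76f⟩,
  ⟨nat_lit 0x4881014000, nat_lit 1, nat_lit 0x770⟩,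
  ⟨nat_lit 0x4881010080, nat_lit 1, nat_lit 0x771⟩,
  ⟨nat_lit 0x4880e14080, nat_lit 1, nat_lit 0x772⟩,
  ⟨nat_lit 0x4880e10100, nat_lit 1, nat_lit 0x773⟩,
  ⟨nat_lit 0x4880c18080, nat_lit 1, nat_lit 0x774⟩,
  ⟨nat_lit 0x4880c14100, nat_lit 1, nat_lit 0x775⟩,
  ⟨nat_lit 0x4880c10180, nat_lit 1, nat_lit 0x776⟩,
  ⟨nat_lit 0x4870c14180, nat_lit 1, nat_lit 0x777⟩,
  ⟨nat_lit 0x4860c18180, nat_lit 1, nat_lit 0x778⟩,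
  ⟨nat_lit 0x4081018000, nat_lit 1, nat_lit 0x779⟩,
  ⟨nat_lit 0x4081010100, nat_lit 1, nat_lit 0x77a⟩,
  ⟨nat_lit 0x4080c18100, nat_lit 1, nat_lit 0x77b⟩,
  ⟨nat_lit 0x4080c10200, nat_lit 1, nat_lit 0x77c⟩,
  ⟨nat_lit 0x4060c18200, nat_lit 1, nat_lit 0x77d⟩,
  ⟨nat_lit 0x3060c18300, nat_lit 1, nat_lit 0x77e⟩]




end Crest.Agent.R187.SN.KD
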