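import Crest.Agent.R187.SN.KD.Base

/-!
# Row 187, PLAN S, generated certificate data (mod 127): levels (a, b), a <= 4, and (5, b), b <= 4

Written by a C++ program (helper662) from the recursion of `SN/Spec.lean`; canonical (RREF)
frames.  The tables are only data: every property is checked by the kernel elsewhere.
-/

set_option autoImplicit false
set_option maxRecDepth 100000

namespace Crest.Agent.R187.SN.KD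

/-- index of level (0, 0) -/
noncomputable def ix_0_0 : List IE := [⟨nat_lit 0, nat_lit 1, nat_lit 0⟩]



/-- index of level (0, 1) -/
noncomputable def ix_0_1 : List IE := [⟨nat_lit 0, nat_lit 1, nat_lit 0⟩]



/-- index of level (0, 2) -/
noncomputable def ix_0_2 : List IE := [⟨nat_lit 0, nat_lit 1, nat_lit 0⟩]



/-- index of level (0, 3) -/
noncomputable def ix_0_3 : List IE := [⟨nat_lit 0, nat_lit 1, nat_lit 0⟩]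



/-- index of level (0, 4) -/
noncomputable def ix_0_4 : List IE := [⟨nat_lit 0, nat_lit 1, nat_lit 0⟩]



/-- index of level (0, 5) -/
noncomputable def ix_0_5 : List IE := [⟨nat_lit 0, nat_lit 1, nat_lit 0⟩]



/-- index of level (0, 6) -/
noncomputable def ix_0_6 : List IE := [⟨nat_lit 0, nat_lit 1, nat_lit 0⟩]



/-- index of level (0, 7) -/
noncomputable def ix_0_7 : List IE := [⟨nat_lit 0, nat_lit 1, nat_lit 0⟩]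

/-- index of level (1, 0) -/
noncomputable def ix_1_0 : List IE := [⟨nat_lit 0, nat_lit 1, nat_lit 0⟩]





/-- index of level (1, 1) -/
noncomputable def ix_1_1 : List IE := [⟨nat_lit 0x800000000, nat_lit 1, nat_lit 0⟩]





/-- index of level (1, 2) -/
noncomputable def ix_1_2 : List IE := [⟨nat_lit 0x1000000000, nat_lit 1, nat_lit 0⟩]





/-- index of level (1, 3) -/
noncomputable def ix_1_3 : List IE := [⟨nat_lit 0x1800000000, nat_lit 1, nat_lit 0⟩]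





/-- index of level (1, 4) -/
noncomputable def ix_1_4 : List IE := [⟨nat_lit 0x2000000000, nat_lit 1, nat_lit 0⟩]





/-- index of level (1, 5) -/
noncomputable def ix_1_5 : List IE := [⟨nat_lit 0x2800000000, nat_lit 1, nat_lit 0⟩]





/-- index of level (1, 6) -/
noncomputable def ix_1_6 : List IE := [⟨nat_lit 0x3000000000, nat_lit 1, nat_lit 0⟩]





/-- index of level (1, 7) -/
noncomputable def ix_1_7 : List IE := [⟨nat_lit 0x3800000000, nat_lit 1, nat_lit 0⟩]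



/-- index of level (2, 0) -/
noncomputable def ix_2_0 : List IE := [⟨nat_lit 0, nat_lit 1, nat_lit 0⟩]





/-- index of level (2, 1) -/
noncomputable def ix_2_1 : List IE := [⟨nat_lit 0x1000000000, nat_lit 1, nat_lit 0⟩]





/-- index of level (2, 2) -/
noncomputable def ix_2_2 : List IE := [⟨nat_lit 0x2000000000, nat_lit 1, nat_lit 0⟩,
  ⟨nat_lit 0x1020000000, nat_lit 1, nat_lit 1⟩]





/-- index of level (2, 3) -/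
noncomputable def ix_2_3 : List IE := [⟨nat_lit 0x3000000000, nat_lit 1, nat_lit 0⟩,
  ⟨nat_lit 0x2020000000, nat_lit 1, nat_lit 1⟩]





/-- index of level (2, 4) -/
noncomputable def ix_2_4 : List IE := [⟨nat_lit 0x4000000000, nat_lit 1, nat_lit 0⟩,
  ⟨nat_lit 0x3020000000, nat_lit 1, nat_lit 1⟩,
  ⟨nat_lit 0x2040000000, nat_lit 1, nat_lit 2⟩]





/-- index of level (2, 5) -/
noncomputable def ix_2_5 : List IE := [⟨nat_lit 0x5000000000, nat_lit 1, nat_lit 0⟩,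
  ⟨nat_lit 0x4020000000, nat_lit 1, nat_lit 1⟩,
  ⟨nat_lit 0x3040000000, nat_lit 1, nat_lit 2⟩]





/-- index of level (2, 6) -/
noncomputable def ix_2_6 : List IE := [⟨nat_lit 0x6000000000, nat_lit 1, nat_lit 0⟩,
  ⟨nat_lit 0x5020000000, nat_lit 1, nat_lit 1⟩,
  ⟨nat_lit 0x4040000000, nat_lit 1, nat_lit 2⟩,
  ⟨nat_lit 0x3060000000, nat_lit 1, nat_lit 3⟩]





/-- index of level (2, 7) -/
noncomputable def ix_2_7 : List IE := [⟨nat_lit 0x7000000000, nat_lit 1, nat_lit 0⟩,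
  ⟨nat_lit 0x6020000000, nat_lit 1, nat_lit 1⟩,
  ⟨nat_lit 0x5040000000, nat_lit 1, nat_lit 2⟩,
  ⟨nat_lit 0x4060000000, nat_lit 1, nat_lit 3⟩]



/-- index of level (3, 0) -/
noncomputable def ix_3_0 : List IE := [⟨nat_lit 0, nat_lit 1, nat_lit 0⟩]





/-- index of level (3, 1) -/
noncomputable def ix_3_1 : List IE := [⟨nat_lit 0x1800000000, nat_lit 1, nat_lit 0⟩]





/-- index of level (3, 2) -/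
noncomputable def ix_3_2 : List IE := [⟨nat_lit 0x3000000000, nat_lit 1, nat_lit 0⟩,
  ⟨nat_lit 0x2020000000, nat_lit 1, nat_lit 1⟩]





/-- index of level (3, 3) -/
noncomputable def ix_3_3 : List IE := [⟨nat_lit 0x4800000000, nat_lit 1, nat_lit 0⟩,
  ⟨nat_lit 0x3820000000, nat_lit 1, nat_lit 1⟩,
  ⟨nat_lit 0x3030000000, nat_lit 1, nat_lit 2⟩,
  ⟨nat_lit 0x2820400000, nat_lit 1, nat_lit 3⟩,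
  ⟨nat_lit 0x2040200000, nat_lit 1, nat_lit 4⟩]





/-- index of level (3, 4) -/
noncomputable def ix_3_4 : List IE := [⟨nat_lit 0x6000000000, nat_lit 1, nat_lit 0⟩,
  ⟨nat_lit 0x5020000000, nat_lit 1, nat_lit 1⟩,
  ⟨nat_lit 0x4830000000, nat_lit 1, nat_lit 2⟩,
  ⟨nat_lit 0x4040000000, nat_lit 1, nat_lit 3⟩,
  ⟨nat_lit 0x4020400000, nat_lit 1, nat_lit 4⟩,
  ⟨nat_lit 0x3840200000, nat_lit 1, nat_lit 5⟩,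
  ⟨nat_lit 0x3060000000, nat_lit 1, nat_lit 6⟩,
  ⟨nat_lit 0x3040400000, nat_lit 1, nat_lit 7⟩,
  ⟨nat_lit 0x2040800000, nat_lit 1, nat_lit 8⟩]





/-- index of level (3, 5) -/
noncomputable def ix_3_5 : List IE := [⟨nat_lit 0x7800000000, nat_lit 1, nat_lit 0⟩,
  ⟨nat_lit 0x6820000000, nat_lit 1, nat_lit 1⟩,
  ⟨nat_lit 0x6030000000, nat_lit 1, nat_lit 2⟩,
  ⟨nat_lit 0x5840000000, nat_lit 1, nat_lit 3⟩,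
  ⟨nat_lit 0x5820400000, nat_lit 1, nat_lit 4⟩,
  ⟨nat_lit 0x5050000000, nat_lit 1, nat_lit 5⟩,
  ⟨nat_lit 0x5040200000, nat_lit 1, nat_lit 6⟩,
  ⟨nat_lit 0x4860000000, nat_lit 1, nat_lit 7⟩,
  ⟨nat_lit 0x4840400000, nat_lit 1, nat_lit 8⟩,
  ⟨nat_lit 0x4060200000, nat_lit 1, nat_lit 9⟩,
  ⟨nat_lit 0x4050400000, nat_lit 1, nat_lit 0xa⟩,
  ⟨nat_lit 0x3840800000, nat_lit 1, nat_lit 0xb⟩,
  ⟨nat_lit 0x3060600000, nat_lit 1, nat_lit 0xc⟩]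





/-- index of level (3, 6) -/
noncomputable def ix_3_6 : List IE := [⟨nat_lit 0x9000000000, nat_lit 1, nat_lit 0⟩,
  ⟨nat_lit 0x8020000000, nat_lit 1, nat_lit 1⟩,
  ⟨nat_lit 0x7830000000, nat_lit 1, nat_lit 2⟩,
  ⟨nat_lit 0x7040000000, nat_lit 1, nat_lit 3⟩,
  ⟨nat_lit 0x7020400000, nat_lit 1, nat_lit 4⟩,
  ⟨nat_lit 0x6850000000, nat_lit 1, nat_lit 5⟩,
  ⟨nat_lit 0x6840200000, nat_lit 1, nat_lit 6⟩,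
  ⟨nat_lit 0x6060000000, nat_lit 2, nat_lit 7⟩,
  ⟨nat_lit 0x6040400000, nat_lit 1, nat_lit 9⟩,
  ⟨nat_lit 0x5860200000, nat_lit 1, nat_lit 0xa⟩,
  ⟨nat_lit 0x5850400000, nat_lit 1, nat_lit 0xb⟩,
  ⟨nat_lit 0x5080000000, nat_lit 1, nat_lit 0xc⟩,
  ⟨nat_lit 0x5070200000, nat_lit 1, nat_lit 0xd⟩,
  ⟨nat_lit 0x5060400000, nat_lit 1, nat_lit 0xe⟩,
  ⟨nat_lit 0x5040800000, nat_lit 1, nat_lit 0xf⟩,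
  ⟨nat_lit 0x4860600000, nat_lit 1, nat_lit 0x10⟩,
  ⟨nat_lit 0x4080400000, nat_lit 1, nat_lit 0x11⟩,
  ⟨nat_lit 0x4060800000, nat_lit 1, nat_lit 0x12⟩,
  ⟨nat_lit 0x3060c00000, nat_lit 1, nat_lit 0x13⟩]





/-- index of level (3, 7) -/
noncomputable def ix_3_7 : List IE := [⟨nat_lit 0xa800000000, nat_lit 1, nat_lit 0⟩,
  ⟨nat_lit 0x9820000000, nat_lit 1, nat_lit 1⟩,
  ⟨nat_lit 0x9030000000, nat_lit 1, nat_lit 2⟩,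
  ⟨nat_lit 0x8840000000, nat_lit 1, nat_lit 3⟩,
  ⟨nat_lit 0x8820400000, nat_lit 1, nat_lit 4⟩,
  ⟨nat_lit 0x8050000000, nat_lit 1, nat_lit 5⟩,
  ⟨nat_lit 0x8040200000, nat_lit 1, nat_lit 6⟩,
  ⟨nat_lit 0x7860000000, nat_lit 2, nat_lit 7⟩,
  ⟨nat_lit 0x7840400000, nat_lit 1, nat_lit 9⟩,
  ⟨nat_lit 0x7070000000, nat_lit 1, nat_lit 0xa⟩,
  ⟨nat_lit 0x7060200000, nat_lit 1, nat_lit 0xb⟩,
  ⟨nat_lit 0x7050400000, nat_lit 1, nat_lit 0xc⟩,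
  ⟨nat_lit 0x6880000000, nat_lit 1, nat_lit 0xd⟩,
  ⟨nat_lit 0x6870200000, nat_lit 1, nat_lit 0xe⟩,
  ⟨nat_lit 0x6860400000, nat_lit 1, nat_lit 0xf⟩,
  ⟨nat_lit 0x6840800000, nat_lit 1, nat_lit 0x10⟩,
  ⟨nat_lit 0x6090000000, nat_lit 1, nat_lit 0x11⟩,
  ⟨nat_lit 0x6080200000, nat_lit 1, nat_lit 0x12⟩,
  ⟨nat_lit 0x6070400000, nat_lit 1, nat_lit 0x13⟩,
  ⟨nat_lit 0x6060600000, nat_lit 1, nat_lit 0x14⟩,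
  ⟨nat_lit 0x5880400000, nat_lit 1, nat_lit 0x15⟩,
  ⟨nat_lit 0x5860800000, nat_lit 1, nat_lit 0x16⟩,
  ⟨nat_lit 0x50a0200000, nat_lit 1, nat_lit 0x17⟩,
  ⟨nat_lit 0x5080600000, nat_lit 1, nat_lit 0x18⟩,
  ⟨nat_lit 0x5070800000, nat_lit 1, nat_lit 0x19⟩,
  ⟨nat_lit 0x4860c00000, nat_lit 1, nat_lit 0x1a⟩,
  ⟨nat_lit 0x4080a00000, nat_lit 1, nat_lit 0x1b⟩]



/-- index of level (4, 0) -/
noncomputable def ix_4_0 : List IE := [⟨nat_lit 0, nat_lit 1, nat_lit 0⟩]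





/-- index of level (4, 1) -/
noncomputable def ix_4_1 : List IE := [⟨nat_lit 0x2000000000, nat_lit 1, nat_lit 0⟩]





/-- index of level (4, 2) -/
noncomputable def ix_4_2 : List IE := [⟨nat_lit 0x4000000000, nat_lit 1, nat_lit 0⟩,
  ⟨nat_lit 0x3020000000, nat_lit 1, nat_lit 1⟩,
  ⟨nat_lit 0x2040000000, nat_lit 1, nat_lit 2⟩]





/-- index of level (4, 3) -/
noncomputable def ix_4_3 : List IE := [⟨nat_lit 0x6000000000, nat_lit 1, nat_lit 0⟩,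
  ⟨nat_lit 0x5020000000, nat_lit 1, nat_lit 1⟩,
  ⟨nat_lit 0x4830000000, nat_lit 1, nat_lit 2⟩,
  ⟨nat_lit 0x4040000000, nat_lit 1, nat_lit 3⟩,
  ⟨nat_lit 0x4020400000, nat_lit 1, nat_lit 4⟩,
  ⟨nat_lit 0x3840200000, nat_lit 1, nat_lit 5⟩,
  ⟨nat_lit 0x3060000000, nat_lit 1, nat_lit 6⟩,
  ⟨nat_lit 0x3040400000, nat_lit 1, nat_lit 7⟩,
  ⟨nat_lit 0x2040800000, nat_lit 1, nat_lit 8⟩]





/-- index of level (4, 4) -/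
noncomputable def ix_4_4 : List IE := [⟨nat_lit 0x8000000000, nat_lit 1, nat_lit 0⟩,
  ⟨nat_lit 0x7020000000, nat_lit 1, nat_lit 1⟩,
  ⟨nat_lit 0x6830000000, nat_lit 1, nat_lit 2⟩,
  ⟨nat_lit 0x6040000000, nat_lit 2, nat_lit 3⟩,
  ⟨nat_lit 0x6020400000, nat_lit 1, nat_lit 5⟩,
  ⟨nat_lit 0x5840200000, nat_lit 1, nat_lit 6⟩,
  ⟨nat_lit 0x5830400000, nat_lit 1, nat_lit 7⟩,
  ⟨nat_lit 0x5060000000, nat_lit 2, nat_lit 8⟩,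
  ⟨nat_lit 0x5050200000, nat_lit 1, nat_lit 0xa⟩,
  ⟨nat_lit 0x5040400000, nat_lit 2, nat_lit 0xb⟩,
  ⟨nat_lit 0x5020408000, nat_lit 1, nat_lit 0xd⟩,
  ⟨nat_lit 0x4860200000, nat_lit 1, nat_lit 0xe⟩,
  ⟨nat_lit 0x4850400000, nat_lit 1, nat_lit 0xf⟩,
  ⟨nat_lit 0x4840600000, nat_lit 1, nat_lit 0x10⟩,
  ⟨nat_lit 0x4840404000, nat_lit 1, nat_lit 0x11⟩,
  ⟨nat_lit 0x4080000000, nat_lit 1, nat_lit 0x12⟩,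
  ⟨nat_lit 0x4060400000, nat_lit 2, nat_lit 0x13⟩,
  ⟨nat_lit 0x4050404000, nat_lit 1, nat_lit 0x15⟩,
  ⟨nat_lit 0x4040800000, nat_lit 2, nat_lit 0x16⟩,
  ⟨nat_lit 0x4040408000, nat_lit 1, nat_lit 0x18⟩,
  ⟨nat_lit 0x3870204000, nat_lit 1, nat_lit 0x19⟩,
  ⟨nat_lit 0x3860600000, nat_lit 1, nat_lit 0x1a⟩,
  ⟨nat_lit 0x3850604000, nat_lit 1, nat_lit 0x1b⟩,
  ⟨nat_lit 0x3840804000, nat_lit 1, nat_lit 0x1c⟩,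
  ⟨nat_lit 0x3060800000, nat_lit 1, nat_lit 0x1d⟩,
  ⟨nat_lit 0x3060408000, nat_lit 1, nat_lit 0x1e⟩,
  ⟨nat_lit 0x3040808000, nat_lit 1, nat_lit 0x1f⟩,
  ⟨nat_lit 0x2040810000, nat_lit 1, nat_lit 0x20⟩]





/-- index of level (4, 5) -/
noncomputable def ix_4_5 : List IE := [⟨nat_lit 0xa000000000, nat_lit 1, nat_lit 0⟩,
  ⟨nat_lit 0x9020000000, nat_lit 1, nat_lit 1⟩,
  ⟨nat_lit 0x8830000000, nat_lit 1, nat_lit 2⟩,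
  ⟨nat_lit 0x8040000000, nat_lit 2, nat_lit 3⟩,
  ⟨nat_lit 0x8020400000, nat_lit 1, nat_lit 5⟩,
  ⟨nat_lit 0x7850000000, nat_lit 1, nat_lit 6⟩,
  ⟨nat_lit 0x7840200000, nat_lit 1, nat_lit 7⟩,
  ⟨nat_lit 0x7830400000, nat_lit 1, nat_lit 8⟩,
  ⟨nat_lit 0x7060000000, nat_lit 2, nat_lit 9⟩,
  ⟨nat_lit 0x7050200000, nat_lit 1, nat_lit 0xb⟩,
  ⟨nat_lit 0x7040400000, nat_lit 2, nat_lit 0xc⟩,
  ⟨nat_lit 0x7020408000, nat_lit 1, nat_lit 0xe⟩,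
  ⟨nat_lit 0x6870000000, nat_lit 1, nat_lit 0xf⟩,
  ⟨nat_lit 0x6860200000, nat_lit 2, nat_lit 0x10⟩,
  ⟨nat_lit 0x6850400000, nat_lit 2, nat_lit 0x12⟩,
  ⟨nat_lit 0x6840600000, nat_lit 1, nat_lit 0x14⟩,
  ⟨nat_lit 0x6840404000, nat_lit 1, nat_lit 0x15⟩,
  ⟨nat_lit 0x6080000000, nat_lit 2, nat_lit 0x16⟩,
  ⟨nat_lit 0x6070200000, nat_lit 1, nat_lit 0x18⟩,
  ⟨nat_lit 0x6060400000, nat_lit 3, nat_lit 0x19⟩,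
  ⟨nat_lit 0x6050600000, nat_lit 1, nat_lit 0x1c⟩,
  ⟨nat_lit 0x6050404000, nat_lit 1, nat_lit 0x1d⟩,
  ⟨nat_lit 0x6040800000, nat_lit 2, nat_lit 0x1e⟩,
  ⟨nat_lit 0x6040408000, nat_lit 1, nat_lit 0x20⟩,
  ⟨nat_lit 0x5880200000, nat_lit 1, nat_lit 0x21⟩,
  ⟨nat_lit 0x5870400000, nat_lit 2, nat_lit 0x22⟩,
  ⟨nat_lit 0x5870204000, nat_lit 1, nat_lit 0x24⟩,
  ⟨nat_lit 0x5860600000, nat_lit 2, nat_lit 0x25⟩,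
  ⟨nat_lit 0x5860404000, nat_lit 1, nat_lit 0x27⟩,
  ⟨nat_lit 0x5850800000, nat_lit 1, nat_lit 0x28⟩,
  ⟨nat_lit 0x5850604000, nat_lit 1, nat_lit 0x29⟩,
  ⟨nat_lit 0x5850408000, nat_lit 1, nat_lit 0x2a⟩,
  ⟨nat_lit 0x5840804000, nat_lit 1, nat_lit 0x2b⟩,
  ⟨nat_lit 0x50a0000000, nat_lit 1, nat_lit 0x2c⟩,
  ⟨nat_lit 0x5090200000, nat_lit 1, nat_lit 0x2d⟩,
  ⟨nat_lit 0x5080400000, nat_lit 2, nat_lit 0x2e⟩,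
  ⟨nat_lit 0x5070600000, nat_lit 1, nat_lit 0x30⟩,
  ⟨nat_lit 0x5070404000, nat_lit 1, nat_lit 0x31⟩,
  ⟨nat_lit 0x5060800000, nat_lit 3, nat_lit 0x32⟩,
  ⟨nat_lit 0x5060604000, nat_lit 1, nat_lit 0x35⟩,
  ⟨nat_lit 0x5060408000, nat_lit 1, nat_lit 0x36⟩,
  ⟨nat_lit 0x5050804000, nat_lit 1, nat_lit 0x37⟩,
  ⟨nat_lit 0x5040808000, nat_lit 1, nat_lit 0x38⟩,
  ⟨nat_lit 0x4880600000, nat_lit 1, nat_lit 0x39⟩,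
  ⟨nat_lit 0x4880404000, nat_lit 1, nat_lit 0x3a⟩,
  ⟨nat_lit 0x4870800000, nat_lit 1, nat_lit 0x3b⟩,
  ⟨nat_lit 0x4870604000, nat_lit 1, nat_lit 0x3c⟩,
  ⟨nat_lit 0x4860a00000, nat_lit 1, nat_lit 0x3d⟩,
  ⟨nat_lit 0x4860804000, nat_lit 1, nat_lit 0x3e⟩,
  ⟨nat_lit 0x4860608000, nat_lit 1, nat_lit 0x3f⟩,
  ⟨nat_lit 0x4850808000, nat_lit 1, nat_lit 0x40⟩,
  ⟨nat_lit 0x4080800000, nat_lit 1, nat_lit 0x41⟩,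
  ⟨nat_lit 0x4080408000, nat_lit 1, nat_lit 0x42⟩,
  ⟨nat_lit 0x4070804000, nat_lit 1, nat_lit 0x43⟩,
  ⟨nat_lit 0x4060c00000, nat_lit 1, nat_lit 0x44⟩,
  ⟨nat_lit 0x4060a04000, nat_lit 1, nat_lit 0x45⟩,
  ⟨nat_lit 0x4060808000, nat_lit 1, nat_lit 0x46⟩,
  ⟨nat_lit 0x4040810000, nat_lit 1, nat_lit 0x47⟩,
  ⟨nat_lit 0x386080c000, nat_lit 1, nat_lit 0x48⟩,
  ⟨nat_lit 0x3060c08000, nat_lit 1, nat_lit 0x49⟩]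





/-- index of level (4, 6) -/
noncomputable def ix_4_6 : List IE := [⟨nat_lit 0xc000000000, nat_lit 1, nat_lit 0⟩,
  ⟨nat_lit 0xb020000000, nat_lit 1, nat_lit 1⟩,
  ⟨nat_lit 0xa830000000, nat_lit 1, nat_lit 2⟩,
  ⟨nat_lit 0xa040000000, nat_lit 2, nat_lit 3⟩,
  ⟨nat_lit 0xa020400000, nat_lit 1, nat_lit 5⟩,
  ⟨nat_lit 0x9850000000, nat_lit 1, nat_lit 6⟩,
  ⟨nat_lit 0x9840200000, nat_lit 1, nat_lit 7⟩,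
  ⟨nat_lit 0x9830400000, nat_lit 1, nat_lit 8⟩,
  ⟨nat_lit 0x9060000000, nat_lit 3, nat_lit 9⟩,
  ⟨nat_lit 0x9050200000, nat_lit 1, nat_lit 0xc⟩,
  ⟨nat_lit 0x9040400000, nat_lit 2, nat_lit 0xd⟩,
  ⟨nat_lit 0x9020408000, nat_lit 1, nat_lit 0xf⟩,
  ⟨nat_lit 0x8870000000, nat_lit 1, nat_lit 0x10⟩,
  ⟨nat_lit 0x8860200000, nat_lit 2, nat_lit 0x11⟩,
  ⟨nat_lit 0x8850400000, nat_lit 2, nat_lit 0x13⟩,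
  ⟨nat_lit 0x8840600000, nat_lit 1, nat_lit 0x15⟩,
  ⟨nat_lit 0x8840404000, nat_lit 1, nat_lit 0x16⟩,
  ⟨nat_lit 0x8080000000, nat_lit 3, nat_lit 0x17⟩,
  ⟨nat_lit 0x8070200000, nat_lit 2, nat_lit 0x1a⟩,
  ⟨nat_lit 0x8060400000, nat_lit 4, nat_lit 0x1c⟩,
  ⟨nat_lit 0x8050600000, nat_lit 1, nat_lit 0x20⟩,
  ⟨nat_lit 0x8050404000, nat_lit 1, nat_lit 0x21⟩,
  ⟨nat_lit 0x8040800000, nat_lit 2, nat_lit 0x22⟩,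
  ⟨nat_lit 0x8040408000, nat_lit 1, nat_lit 0x24⟩,
  ⟨nat_lit 0x7890000000, nat_lit 1, nat_lit 0x25⟩,
  ⟨nat_lit 0x7880200000, nat_lit 2, nat_lit 0x26⟩,
  ⟨nat_lit 0x7870400000, nat_lit 3, nat_lit 0x28⟩,
  ⟨nat_lit 0x7870204000, nat_lit 1, nat_lit 0x2b⟩,
  ⟨nat_lit 0x7860600000, nat_lit 3, nat_lit 0x2c⟩,
  ⟨nat_lit 0x7860404000, nat_lit 1, nat_lit 0x2f⟩,
  ⟨nat_lit 0x7850800000, nat_lit 1, nat_lit 0x30⟩,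
  ⟨nat_lit 0x7850604000, nat_lit 1, nat_lit 0x31⟩,
  ⟨nat_lit 0x7850408000, nat_lit 1, nat_lit 0x32⟩,
  ⟨nat_lit 0x7840804000, nat_lit 1, nat_lit 0x33⟩,
  ⟨nat_lit 0x70a0000000, nat_lit 2, nat_lit 0x34⟩,
  ⟨nat_lit 0x7090200000, nat_lit 2, nat_lit 0x36⟩,
  ⟨nat_lit 0x7080400000, nat_lit 4, nat_lit 0x38⟩,
  ⟨nat_lit 0x7070600000, nat_lit 2, nat_lit 0x3c⟩,
  ⟨nat_lit 0x7070404000, nat_lit 2, nat_lit 0x3e⟩,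
  ⟨nat_lit 0x7060800000, nat_lit 4, nat_lit 0x40⟩,
  ⟨nat_lit 0x7060604000, nat_lit 1, nat_lit 0x44⟩,
  ⟨nat_lit 0x7060408000, nat_lit 2, nat_lit 0x45⟩,
  ⟨nat_lit 0x7050804000, nat_lit 1, nat_lit 0x47⟩,
  ⟨nat_lit 0x7040808000, nat_lit 1, nat_lit 0x48⟩,
  ⟨nat_lit 0x68a0200000, nat_lit 2, nat_lit 0x49⟩,
  ⟨nat_lit 0x6890400000, nat_lit 2, nat_lit 0x4b⟩,
  ⟨nat_lit 0x6890204000, nat_lit 1, nat_lit 0x4d⟩,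
  ⟨nat_lit 0x6880600000, nat_lit 3, nat_lit 0x4e⟩,
  ⟨nat_lit 0x6880404000, nat_lit 2, nat_lit 0x51⟩,
  ⟨nat_lit 0x6870800000, nat_lit 3, nat_lit 0x53⟩,
  ⟨nat_lit 0x6870604000, nat_lit 2, nat_lit 0x56⟩,
  ⟨nat_lit 0x6860a00000, nat_lit 2, nat_lit 0x58⟩,
  ⟨nat_lit 0x6860804000, nat_lit 2, nat_lit 0x5a⟩,
  ⟨nat_lit 0x6860608000, nat_lit 1, nat_lit 0x5c⟩,
  ⟨nat_lit 0x6850808000, nat_lit 1, nat_lit 0x5d⟩,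
  ⟨nat_lit 0x60c0000000, nat_lit 2, nat_lit 0x5e⟩,
  ⟨nat_lit 0x60a0400000, nat_lit 3, nat_lit 0x60⟩,
  ⟨nat_lit 0x6090600000, nat_lit 2, nat_lit 0x63⟩,
  ⟨nat_lit 0x6090404000, nat_lit 1, nat_lit 0x65⟩,
  ⟨nat_lit 0x6080800000, nat_lit 4, nat_lit 0x66⟩,
  ⟨nat_lit 0x6080604000, nat_lit 1, nat_lit 0x6a⟩,
  ⟨nat_lit 0x6080408000, nat_lit 2, nat_lit 0x6b⟩,
  ⟨nat_lit 0x6070a00000, nat_lit 1, nat_lit 0x6d⟩,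
  ⟨nat_lit 0x6070804000, nat_lit 2, nat_lit 0x6e⟩,
  ⟨nat_lit 0x6070608000, nat_lit 1, nat_lit 0x70⟩,
  ⟨nat_lit 0x6060c00000, nat_lit 3, nat_lit 0x71⟩,
  ⟨nat_lit 0x6060a04000, nat_lit 1, nat_lit 0x74⟩,
  ⟨nat_lit 0x6060808000, nat_lit 2, nat_lit 0x75⟩,
  ⟨nat_lit 0x6040810000, nat_lit 1, nat_lit 0x77⟩,
  ⟨nat_lit 0x58b0204000, nat_lit 1, nat_lit 0x78⟩,
  ⟨nat_lit 0x58a0600000, nat_lit 1, nat_lit 0x79⟩,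
  ⟨nat_lit 0x58a0404000, nat_lit 1, nat_lit 0x7a⟩,
  ⟨nat_lit 0x5890800000, nat_lit 1, nat_lit 0x7b⟩,
  ⟨nat_lit 0x5890604000, nat_lit 2, nat_lit 0x7c⟩,
  ⟨nat_lit 0x5880a00000, nat_lit 2, nat_lit 0x7e⟩,
  ⟨nat_lit 0x5880804000, nat_lit 2, nat_lit 0x80⟩,
  ⟨nat_lit 0x5880608000, nat_lit 1, nat_lit 0x82⟩,
  ⟨nat_lit 0x5870c00000, nat_lit 1, nat_lit 0x83⟩,
  ⟨nat_lit 0x5870a04000, nat_lit 2, nat_lit 0x84⟩,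
  ⟨nat_lit 0x5870808000, nat_lit 1, nat_lit 0x86⟩,
  ⟨nat_lit 0x5860c04000, nat_lit 1, nat_lit 0x87⟩,
  ⟨nat_lit 0x5860a08000, nat_lit 1, nat_lit 0x88⟩,
  ⟨nat_lit 0x586080c000, nat_lit 1, nat_lit 0x89⟩,
  ⟨nat_lit 0x50a0800000, nat_lit 2, nat_lit 0x8a⟩,
  ⟨nat_lit 0x50a0408000, nat_lit 1, nat_lit 0x8c⟩,
  ⟨nat_lit 0x5090a00000, nat_lit 1, nat_lit 0x8d⟩,
  ⟨nat_lit 0x5090804000, nat_lit 1, nat_lit 0x8e⟩,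
  ⟨nat_lit 0x5080c00000, nat_lit 2, nat_lit 0x8f⟩,
  ⟨nat_lit 0x5080a04000, nat_lit 1, nat_lit 0x91⟩,
  ⟨nat_lit 0x5080808000, nat_lit 2, nat_lit 0x92⟩,
  ⟨nat_lit 0x5070c04000, nat_lit 1, nat_lit 0x94⟩,
  ⟨nat_lit 0x507080c000, nat_lit 1, nat_lit 0x95⟩,
  ⟨nat_lit 0x5060c08000, nat_lit 2, nat_lit 0x96⟩,
  ⟨nat_lit 0x5060810000, nat_lit 1, nat_lit 0x98⟩,
  ⟨nat_lit 0x489060c000, nat_lit 1, nat_lit 0x99⟩,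
  ⟨nat_lit 0x4880c04000, nat_lit 1, nat_lit 0x9a⟩,
  ⟨nat_lit 0x4880a08000, nat_lit 1, nat_lit 0x9b⟩,
  ⟨nat_lit 0x4870a0c000, nat_lit 1, nat_lit 0x9c⟩,
  ⟨nat_lit 0x4860c0c000, nat_lit 1, nat_lit 0x9d⟩,
  ⟨nat_lit 0x4081000000, nat_lit 1, nat_lit 0x9e⟩,
  ⟨nat_lit 0x4080c08000, nat_lit 1, nat_lit 0x9f⟩,
  ⟨nat_lit 0x4080810000, nat_lit 1, nat_lit 0xa0⟩,
  ⟨nat_lit 0x4060c10000, nat_lit 1, nat_lit 0xa1⟩,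
  ⟨nat_lit 0x3060c18000, nat_lit 1, nat_lit 0xa2⟩]







/-- index of level (4, 7) -/
noncomputable def ix_4_7 : List IE := [⟨nat_lit 0xe000000000, nat_lit 1, nat_lit 0⟩,
  ⟨nat_lit 0xd020000000, nat_lit 1, nat_lit 1⟩,
  ⟨nat_lit 0xc830000000, nat_lit 1, nat_lit 2⟩,
  ⟨nat_lit 0xc040000000, nat_lit 2, nat_lit 3⟩,
  ⟨nat_lit 0xc020400000, nat_lit 1, nat_lit 5⟩,
  ⟨nat_lit 0xb850000000, nat_lit 1, nat_lit 6⟩,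
  ⟨nat_lit 0xb840200000, nat_lit 1, nat_lit 7⟩,
  ⟨nat_lit 0xb830400000, nat_lit 1, nat_lit 8⟩,
  ⟨nat_lit 0xb060000000, nat_lit 3, nat_lit 9⟩,
  ⟨nat_lit 0xb050200000, nat_lit 1, nat_lit 0xc⟩,
  ⟨nat_lit 0xb040400000, nat_lit 2, nat_lit 0xd⟩,
  ⟨nat_lit 0xb020408000, nat_lit 1, nat_lit 0xf⟩,
  ⟨nat_lit 0xa870000000, nat_lit 2, nat_lit 0x10⟩,
  ⟨nat_lit 0xa860200000, nat_lit 2, nat_lit 0x12⟩,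
  ⟨nat_lit 0xa850400000, nat_lit 2, nat_lit 0x14⟩,
  ⟨nat_lit 0xa840600000, nat_lit 1, nat_lit 0x16⟩,
  ⟨nat_lit 0xa840404000, nat_lit 1, nat_lit 0x17⟩,
  ⟨nat_lit 0xa080000000, nat_lit 3, nat_lit 0x18⟩,
  ⟨nat_lit 0xa070200000, nat_lit 2, nat_lit 0x1b⟩,
  ⟨nat_lit 0xa060400000, nat_lit 4, nat_lit 0x1d⟩,
  ⟨nat_lit 0xa050600000, nat_lit 1, nat_lit 0x21⟩,
  ⟨nat_lit 0xa050404000, nat_lit 1, nat_lit 0x22⟩,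
  ⟨nat_lit 0xa040800000, nat_lit 2, nat_lit 0x23⟩,
  ⟨nat_lit 0xa040408000, nat_lit 1, nat_lit 0x25⟩,
  ⟨nat_lit 0x9890000000, nat_lit 2, nat_lit 0x26⟩,
  ⟨nat_lit 0x9880200000, nat_lit 3, nat_lit 0x28⟩,
  ⟨nat_lit 0x9870400000, nat_lit 4, nat_lit 0x2b⟩,
  ⟨nat_lit 0x9870204000, nat_lit 1, nat_lit 0x2f⟩,
  ⟨nat_lit 0x9860600000, nat_lit 3, nat_lit 0x30⟩,
  ⟨nat_lit 0x9860404000, nat_lit 1, nat_lit 0x33⟩,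
  ⟨nat_lit 0x9850800000, nat_lit 1, nat_lit 0x34⟩,
  ⟨nat_lit 0x9850604000, nat_lit 1, nat_lit 0x35⟩,
  ⟨nat_lit 0x9850408000, nat_lit 1, nat_lit 0x36⟩,
  ⟨nat_lit 0x9840804000, nat_lit 1, nat_lit 0x37⟩,
  ⟨nat_lit 0x90a0000000, nat_lit 3, nat_lit 0x38⟩,
  ⟨nat_lit 0x9090200000, nat_lit 3, nat_lit 0x3b⟩,
  ⟨nat_lit 0x9080400000, nat_lit 5, nat_lit 0x3e⟩,
  ⟨nat_lit 0x9070600000, nat_lit 3, nat_lit 0x43⟩,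
  ⟨nat_lit 0x9070404000, nat_lit 2, nat_lit 0x46⟩,
  ⟨nat_lit 0x9060800000, nat_lit 4, nat_lit 0x48⟩,
  ⟨nat_lit 0x9060604000, nat_lit 1, nat_lit 0x4c⟩,
  ⟨nat_lit 0x9060408000, nat_lit 2, nat_lit 0x4d⟩,
  ⟨nat_lit 0x9050804000, nat_lit 1, nat_lit 0x4f⟩,
  ⟨nat_lit 0x9040808000, nat_lit 1, nat_lit 0x50⟩,
  ⟨nat_lit 0x88b0000000, nat_lit 1, nat_lit 0x51⟩,
  ⟨nat_lit 0x88a0200000, nat_lit 3, nat_lit 0x52⟩,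
  ⟨nat_lit 0x8890400000, nat_lit 4, nat_lit 0x55⟩,
  ⟨nat_lit 0x8890204000, nat_lit 1, nat_lit 0x59⟩,
  ⟨nat_lit 0x8880600000, nat_lit 4, nat_lit 0x5a⟩,
  ⟨nat_lit 0x8880404000, nat_lit 3, nat_lit 0x5e⟩,
  ⟨nat_lit 0x8870800000, nat_lit 4, nat_lit 0x61⟩,
  ⟨nat_lit 0x8870604000, nat_lit 2, nat_lit 0x65⟩,
  ⟨nat_lit 0x8870408000, nat_lit 1, nat_lit 0x67⟩,
  ⟨nat_lit 0x8860a00000, nat_lit 2, nat_lit 0x68⟩,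
  ⟨nat_lit 0x8860804000, nat_lit 2, nat_lit 0x6a⟩,
  ⟨nat_lit 0x8860608000, nat_lit 1, nat_lit 0x6c⟩,
  ⟨nat_lit 0x8850808000, nat_lit 1, nat_lit 0x6d⟩,
  ⟨nat_lit 0x80c0000000, nat_lit 3, nat_lit 0x6e⟩,
  ⟨nat_lit 0x80b0200000, nat_lit 2, nat_lit 0x71⟩,
  ⟨nat_lit 0x80a0400000, nat_lit 5, nat_lit 0x73⟩,
  ⟨nat_lit 0x80a0204000, nat_lit 1, nat_lit 0x78⟩,
  ⟨nat_lit 0x8090600000, nat_lit 4, nat_lit 0x79⟩,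
  ⟨nat_lit 0x8090404000, nat_lit 2, nat_lit 0x7d⟩,
  ⟨nat_lit 0x8080800000, nat_lit 6, nat_lit 0x7f⟩,
  ⟨nat_lit 0x8080604000, nat_lit 2, nat_lit 0x85⟩,
  ⟨nat_lit 0x8080408000, nat_lit 2, nat_lit 0x87⟩,
  ⟨nat_lit 0x8070a00000, nat_lit 2, nat_lit 0x89⟩,
  ⟨nat_lit 0x8070804000, nat_lit 3, nat_lit 0x8b⟩,
  ⟨nat_lit 0x8070608000, nat_lit 1, nat_lit 0x8e⟩,
  ⟨nat_lit 0x8060c00000, nat_lit 3, nat_lit 0x8f⟩,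
  ⟨nat_lit 0x8060a04000, nat_lit 1, nat_lit 0x92⟩,
  ⟨nat_lit 0x8060808000, nat_lit 2, nat_lit 0x93⟩,
  ⟨nat_lit 0x8040810000, nat_lit 1, nat_lit 0x95⟩,
  ⟨nat_lit 0x78c0200000, nat_lit 2, nat_lit 0x96⟩,
  ⟨nat_lit 0x78b0400000, nat_lit 3, nat_lit 0x98⟩,
  ⟨nat_lit 0x78b0204000, nat_lit 1, nat_lit 0x9b⟩,
  ⟨nat_lit 0x78a0600000, nat_lit 4, nat_lit 0x9c⟩,
  ⟨nat_lit 0x78a0404000, nat_lit 2, nat_lit 0xa0⟩,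
  ⟨nat_lit 0x7890800000, nat_lit 4, nat_lit 0xa2⟩,
  ⟨nat_lit 0x7890604000, nat_lit 3, nat_lit 0xa6⟩,
  ⟨nat_lit 0x7890408000, nat_lit 1, nat_lit 0xa9⟩,
  ⟨nat_lit 0x7880a00000, nat_lit 4, nat_lit 0xaa⟩,
  ⟨nat_lit 0x7880804000, nat_lit 3, nat_lit 0xae⟩,
  ⟨nat_lit 0x7880608000, nat_lit 2, nat_lit 0xb1⟩,
  ⟨nat_lit 0x7870c00000, nat_lit 3, nat_lit 0xb3⟩,
  ⟨nat_lit 0x7870a04000, nat_lit 2, nat_lit 0xb6⟩,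
  ⟨nat_lit 0x7870808000, nat_lit 2, nat_lit 0xb8⟩,
  ⟨nat_lit 0x7860c04000, nat_lit 1, nat_lit 0xba⟩,
  ⟨nat_lit 0x7860a08000, nat_lit 1, nat_lit 0xbb⟩,
  ⟨nat_lit 0x786080c000, nat_lit 1, nat_lit 0xbc⟩,
  ⟨nat_lit 0x70e0000000, nat_lit 1, nat_lit 0xbd⟩,
  ⟨nat_lit 0x70d0200000, nat_lit 1, nat_lit 0xbe⟩,
  ⟨nat_lit 0x70c0400000, nat_lit 3, nat_lit 0xbf⟩,
  ⟨nat_lit 0x70b0600000, nat_lit 2, nat_lit 0xc2⟩,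
  ⟨nat_lit 0x70b0404000, nat_lit 2, nat_lit 0xc4⟩,
  ⟨nat_lit 0x70a0800000, nat_lit 5, nat_lit 0xc6⟩,
  ⟨nat_lit 0x70a0604000, nat_lit 2, nat_lit 0xcb⟩,
  ⟨nat_lit 0x70a0408000, nat_lit 2, nat_lit 0xcd⟩,
  ⟨nat_lit 0x7090a00000, nat_lit 3, nat_lit 0xcf⟩,
  ⟨nat_lit 0x7090804000, nat_lit 3, nat_lit 0xd2⟩,
  ⟨nat_lit 0x7090608000, nat_lit 1, nat_lit 0xd5⟩,
  ⟨nat_lit 0x7080c00000, nat_lit 4, nat_lit 0xd6⟩,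
  ⟨nat_lit 0x7080a04000, nat_lit 3, nat_lit 0xda⟩,
  ⟨nat_lit 0x7080808000, nat_lit 3, nat_lit 0xdd⟩,
  ⟨nat_lit 0x7070c04000, nat_lit 2, nat_lit 0xe0⟩,
  ⟨nat_lit 0x7070a08000, nat_lit 1, nat_lit 0xe2⟩,
  ⟨nat_lit 0x707080c000, nat_lit 1, nat_lit 0xe3⟩,
  ⟨nat_lit 0x7060c08000, nat_lit 2, nat_lit 0xe4⟩,
  ⟨nat_lit 0x7060810000, nat_lit 1, nat_lit 0xe6⟩,
  ⟨nat_lit 0x68d0204000, nat_lit 1, nat_lit 0xe7⟩,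
  ⟨nat_lit 0x68c0600000, nat_lit 2, nat_lit 0xe8⟩,
  ⟨nat_lit 0x68c0404000, nat_lit 1, nat_lit 0xea⟩,
  ⟨nat_lit 0x68b0800000, nat_lit 2, nat_lit 0xeb⟩,
  ⟨nat_lit 0x68b0604000, nat_lit 2, nat_lit 0xed⟩,
  ⟨nat_lit 0x68a0a00000, nat_lit 3, nat_lit 0xef⟩,
  ⟨nat_lit 0x68a0804000, nat_lit 3, nat_lit 0xf2⟩,
  ⟨nat_lit 0x68a0608000, nat_lit 1, nat_lit 0xf5⟩,
  ⟨nat_lit 0x6890c00000, nat_lit 3, nat_lit 0xf6⟩,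
  ⟨nat_lit 0x6890a04000, nat_lit 2, nat_lit 0xf9⟩,
  ⟨nat_lit 0x6890808000, nat_lit 2, nat_lit 0xfb⟩,
  ⟨nat_lit 0x689060c000, nat_lit 1, nat_lit 0xfd⟩,
  ⟨nat_lit 0x6880e00000, nat_lit 2, nat_lit 0xfe⟩,
  ⟨nat_lit 0x6880c04000, nat_lit 3, nat_lit 0x100⟩,
  ⟨nat_lit 0x6880a08000, nat_lit 2, nat_lit 0x103⟩,
  ⟨nat_lit 0x688080c000, nat_lit 1, nat_lit 0x105⟩,
  ⟨nat_lit 0x6870e04000, nat_lit 1, nat_lit 0x106⟩,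
  ⟨nat_lit 0x6870c08000, nat_lit 1, nat_lit 0x107⟩,
  ⟨nat_lit 0x6870a0c000, nat_lit 1, nat_lit 0x108⟩,
  ⟨nat_lit 0x6870810000, nat_lit 1, nat_lit 0x109⟩,
  ⟨nat_lit 0x6860c0c000, nat_lit 1, nat_lit 0x10a⟩,
  ⟨nat_lit 0x60c0800000, nat_lit 2, nat_lit 0x10b⟩,
  ⟨nat_lit 0x60c0408000, nat_lit 1, nat_lit 0x10d⟩,
  ⟨nat_lit 0x60b0a00000, nat_lit 1, nat_lit 0x10e⟩,
  ⟨nat_lit 0x60b0804000, nat_lit 1, nat_lit 0x10f⟩,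
  ⟨nat_lit 0x60b0608000, nat_lit 1, nat_lit 0x110⟩,
  ⟨nat_lit 0x60a0c00000, nat_lit 3, nat_lit 0x111⟩,
  ⟨nat_lit 0x60a0a04000, nat_lit 2, nat_lit 0x114⟩,
  ⟨nat_lit 0x60a0808000, nat_lit 2, nat_lit 0x116⟩,
  ⟨nat_lit 0x6090e00000, nat_lit 1, nat_lit 0x118⟩,
  ⟨nat_lit 0x6090c04000, nat_lit 2, nat_lit 0x119⟩,
  ⟨nat_lit 0x6090a08000, nat_lit 1, nat_lit 0x11b⟩,
  ⟨nat_lit 0x609080c000, nat_lit 1, nat_lit 0x11c⟩,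
  ⟨nat_lit 0x6081000000, nat_lit 2, nat_lit 0x11d⟩,
  ⟨nat_lit 0x6080e04000, nat_lit 1, nat_lit 0x11f⟩,
  ⟨nat_lit 0x6080c08000, nat_lit 3, nat_lit 0x120⟩,
  ⟨nat_lit 0x6080a0c000, nat_lit 1, nat_lit 0x123⟩,
  ⟨nat_lit 0x6080810000, nat_lit 1, nat_lit 0x124⟩,
  ⟨nat_lit 0x6070c0c000, nat_lit 1, nat_lit 0x125⟩,
  ⟨nat_lit 0x6060c10000, nat_lit 1, nat_lit 0x126⟩,
  ⟨nat_lit 0x58b0a04000, nat_lit 1, nat_lit 0x127⟩,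
  ⟨nat_lit 0x58a0e00000, nat_lit 1, nat_lit 0x128⟩,
  ⟨nat_lit 0x58a0c04000, nat_lit 1, nat_lit 0x129⟩,
  ⟨nat_lit 0x58a0a08000, nat_lit 1, nat_lit 0x12a⟩,
  ⟨nat_lit 0x58a080c000, nat_lit 1, nat_lit 0x12b⟩,
  ⟨nat_lit 0x5890e04000, nat_lit 1, nat_lit 0x12c⟩,
  ⟨nat_lit 0x5890c08000, nat_lit 1, nat_lit 0x12d⟩,
  ⟨nat_lit 0x5890a0c000, nat_lit 1, nat_lit 0x12e⟩,
  ⟨nat_lit 0x5881004000, nat_lit 1, nat_lit 0x12f⟩,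
  ⟨nat_lit 0x5880e08000, nat_lit 1, nat_lit 0x130⟩,
  ⟨nat_lit 0x5880c0c000, nat_lit 1, nat_lit 0x131⟩,
  ⟨nat_lit 0x5880a10000, nat_lit 1, nat_lit 0x132⟩,
  ⟨nat_lit 0x5870c10000, nat_lit 1, nat_lit 0x133⟩,
  ⟨nat_lit 0x50a1000000, nat_lit 1, nat_lit 0x134⟩,
  ⟨nat_lit 0x50a0e04000, nat_lit 1, nat_lit 0x135⟩,
  ⟨nat_lit 0x50a0c08000, nat_lit 1, nat_lit 0x136⟩,
  ⟨nat_lit 0x50a0810000, nat_lit 1, nat_lit 0x137⟩,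
  ⟨nat_lit 0x5090c0c000, nat_lit 1, nat_lit 0x138⟩,
  ⟨nat_lit 0x5081008000, nat_lit 1, nat_lit 0x139⟩,
  ⟨nat_lit 0x5080e0c000, nat_lit 1, nat_lit 0x13a⟩,
  ⟨nat_lit 0x5080c10000, nat_lit 1, nat_lit 0x13b⟩,
  ⟨nat_lit 0x5060c18000, nat_lit 1, nat_lit 0x13c⟩,
  ⟨nat_lit 0x4880c14000, nat_lit 1, nat_lit 0x13d⟩,
  ⟨nat_lit 0x4081010000, nat_lit 1, nat_lit 0x13e⟩]






/-- index of level (5, 0) -/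
noncomputable def ix_5_0 : List IE := [⟨nat_lit 0, nat_lit 1, nat_lit 0⟩]





/-- index of level (5, 1) -/
noncomputable def ix_5_1 : List IE := [⟨nat_lit 0x2800000000, nat_lit 1, nat_lit 0⟩]





/-- index of level (5, 2) -/
noncomputable def ix_5_2 : List IE := [⟨nat_lit 0x5000000000, nat_lit 1, nat_lit 0⟩,
  ⟨nat_lit 0x4020000000, nat_lit 1, nat_lit 1⟩,
  ⟨nat_lit 0x3040000000, nat_lit 1, nat_lit 2⟩]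





/-- index of level (5, 3) -/
noncomputable def ix_5_3 : List IE := [⟨nat_lit 0x7800000000, nat_lit 1, nat_lit 0⟩,
  ⟨nat_lit 0x6820000000, nat_lit 1, nat_lit 1⟩,
  ⟨nat_lit 0x6030000000, nat_lit 1, nat_lit 2⟩,
  ⟨nat_lit 0x5840000000, nat_lit 1, nat_lit 3⟩,
  ⟨nat_lit 0x5820400000, nat_lit 1, nat_lit 4⟩,
  ⟨nat_lit 0x5050000000, nat_lit 1, nat_lit 5⟩,
  ⟨nat_lit 0x5040200000, nat_lit 1, nat_lit 6⟩,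
  ⟨nat_lit 0x4860000000, nat_lit 1, nat_lit 7⟩,
  ⟨nat_lit 0x4840400000, nat_lit 1, nat_lit 8⟩,
  ⟨nat_lit 0x4060200000, nat_lit 1, nat_lit 9⟩,
  ⟨nat_lit 0x4050400000, nat_lit 1, nat_lit 0xa⟩,
  ⟨nat_lit 0x3840800000, nat_lit 1, nat_lit 0xb⟩,
  ⟨nat_lit 0x3060600000, nat_lit 1, nat_lit 0xc⟩]





/-- index of level (5, 4) -/
noncomputable def ix_5_4 : List IE := [⟨nat_lit 0xa000000000, nat_lit 1, nat_lit 0⟩,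
  ⟨nat_lit 0x9020000000, nat_lit 1, nat_lit 1⟩,
  ⟨nat_lit 0x8830000000, nat_lit 1, nat_lit 2⟩,
  ⟨nat_lit 0x8040000000, nat_lit 2, nat_lit 3⟩,
  ⟨nat_lit 0x8020400000, nat_lit 1, nat_lit 5⟩,
  ⟨nat_lit 0x7850000000, nat_lit 1, nat_lit 6⟩,
  ⟨nat_lit 0x7840200000, nat_lit 1, nat_lit 7⟩,
  ⟨nat_lit 0x7830400000, nat_lit 1, nat_lit 8⟩,
  ⟨nat_lit 0x7060000000, nat_lit 2, nat_lit 9⟩,
  ⟨nat_lit 0x7050200000, nat_lit 1, nat_lit 0xb⟩,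
  ⟨nat_lit 0x7040400000, nat_lit 2, nat_lit 0xc⟩,
  ⟨nat_lit 0x7020408000, nat_lit 1, nat_lit 0xe⟩,
  ⟨nat_lit 0x6870000000, nat_lit 1, nat_lit 0xf⟩,
  ⟨nat_lit 0x6860200000, nat_lit 2, nat_lit 0x10⟩,
  ⟨nat_lit 0x6850400000, nat_lit 2, nat_lit 0x12⟩,
  ⟨nat_lit 0x6840600000, nat_lit 1, nat_lit 0x14⟩,
  ⟨nat_lit 0x6840404000, nat_lit 1, nat_lit 0x15⟩,
  ⟨nat_lit 0x6080000000, nat_lit 2, nat_lit 0x16⟩,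
  ⟨nat_lit 0x6070200000, nat_lit 1, nat_lit 0x18⟩,
  ⟨nat_lit 0x6060400000, nat_lit 3, nat_lit 0x19⟩,
  ⟨nat_lit 0x6050600000, nat_lit 1, nat_lit 0x1c⟩,
  ⟨nat_lit 0x6050404000, nat_lit 1, nat_lit 0x1d⟩,
  ⟨nat_lit 0x6040800000, nat_lit 2, nat_lit 0x1e⟩,
  ⟨nat_lit 0x6040408000, nat_lit 1, nat_lit 0x20⟩,
  ⟨nat_lit 0x5880200000, nat_lit 1, nat_lit 0x21⟩,
  ⟨nat_lit 0x5870400000, nat_lit 2, nat_lit 0x22⟩,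
  ⟨nat_lit 0x5870204000, nat_lit 1, nat_lit 0x24⟩,
  ⟨nat_lit 0x5860600000, nat_lit 2, nat_lit 0x25⟩,
  ⟨nat_lit 0x5860404000, nat_lit 1, nat_lit 0x27⟩,
  ⟨nat_lit 0x5850800000, nat_lit 1, nat_lit 0x28⟩,
  ⟨nat_lit 0x5850604000, nat_lit 1, nat_lit 0x29⟩,
  ⟨nat_lit 0x5850408000, nat_lit 1, nat_lit 0x2a⟩,
  ⟨nat_lit 0x5840804000, nat_lit 1, nat_lit 0x2b⟩,
  ⟨nat_lit 0x50a0000000, nat_lit 1, nat_lit 0x2c⟩,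
  ⟨nat_lit 0x5090200000, nat_lit 1, nat_lit 0x2d⟩,
  ⟨nat_lit 0x5080400000, nat_lit 2, nat_lit 0x2e⟩,
  ⟨nat_lit 0x5070600000, nat_lit 1, nat_lit 0x30⟩,
  ⟨nat_lit 0x5070404000, nat_lit 1, nat_lit 0x31⟩,
  ⟨nat_lit 0x5060800000, nat_lit 3, nat_lit 0x32⟩,
  ⟨nat_lit 0x5060604000, nat_lit 1, nat_lit 0x35⟩,
  ⟨nat_lit 0x5060408000, nat_lit 1, nat_lit 0x36⟩,
  ⟨nat_lit 0x5050804000, nat_lit 1, nat_lit 0x37⟩,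
  ⟨nat_lit 0x5040808000, nat_lit 1, nat_lit 0x38⟩,
  ⟨nat_lit 0x4880600000, nat_lit 1, nat_lit 0x39⟩,
  ⟨nat_lit 0x4880404000, nat_lit 1, nat_lit 0x3a⟩,
  ⟨nat_lit 0x4870800000, nat_lit 1, nat_lit 0x3b⟩,
  ⟨nat_lit 0x4870604000, nat_lit 1, nat_lit 0x3c⟩,
  ⟨nat_lit 0x4860a00000, nat_lit 1, nat_lit 0x3d⟩,
  ⟨nat_lit 0x4860804000, nat_lit 1, nat_lit 0x3e⟩,
  ⟨nat_lit 0x4860608000, nat_lit 1, nat_lit 0x3f⟩,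
  ⟨nat_lit 0x4850808000, nat_lit 1, nat_lit 0x40⟩,
  ⟨nat_lit 0x4080800000, nat_lit 1, nat_lit 0x41⟩,
  ⟨nat_lit 0x4080408000, nat_lit 1, nat_lit 0x42⟩,
  ⟨nat_lit 0x4070804000, nat_lit 1, nat_lit 0x43⟩,
  ⟨nat_lit 0x4060c00000, nat_lit 1, nat_lit 0x44⟩,
  ⟨nat_lit 0x4060a04000, nat_lit 1, nat_lit 0x45⟩,
  ⟨nat_lit 0x4060808000, nat_lit 1, nat_lit 0x46⟩,
  ⟨nat_lit 0x4040810000, nat_lit 1, nat_lit 0x47⟩,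
  ⟨nat_lit 0x386080c000, nat_lit 1, nat_lit 0x48⟩,
  ⟨nat_lit 0x3060c08000, nat_lit 1, nat_lit 0x49⟩]





end Crest.Agent.R187.SN.KD
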